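import Vale.Agent.P271.Ver.Main
import Mathlib.Topology.KrullDimension
import Mathlib.AlgebraicGeometry.Properties

/-!
# Dimension: a homogeneous prime of growth exponent one less; the dimension of a closure
-/

set_option linter.all false

open Order TopologicalSpace Topology

namespace Vale.Agent.N271X

open Vale.Agent.P271 Vale.Agent.P271.Ver Vale.Agent.P271.Deg Vale.Agent.P271.Drop

theorem exists_prime_above {R : Type} [CommRing R] [Algebra ℂ R] {𝒜 : ℕ → Submodule ℂ R}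
    [GradedAlgebra 𝒜] {m : ℕ} (h : VerOK 𝒜 m) {P : Ideal R} (hPp : P.IsPrime)
    (hP : P.IsHomogeneous 𝒜) (hrel : ¬ (𝒜 m : Set R) ⊆ P) {d D : ℕ} (hD : 1 ≤ D)
    (hTS : TwoSided (d + 1) D (fun t => hilb 𝒜 P (m * t))) :
    ∃ Q : Ideal R, Q.IsPrime ∧ Q.IsHomogeneous 𝒜 ∧ P < Q ∧ ¬ (𝒜 m : Set R) ⊆ Q ∧
      ∃ e E : ℕ, 1 ≤ E ∧ TwoSided e E (fun t => hilb 𝒜 Q (m * t)) ∧ d ≤ e := by
  obtain ⟨d', y, D', hy, hind, hint, hD', hTS'⟩ := prime_data h hPp hP hrel
  obtain ⟨rfl, -⟩ := hTS.unique hTS' hD hD'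
  let B := Algebra.adjoin ℂ (Set.range fun i => Ideal.Quotient.mk P (y i))
  have : Algebra.IsIntegral B (R ⧸ P) := ⟨hint⟩
  let ψ : MvPolynomial (Fin (d + 1 + 1)) ℂ →ₐ[ℂ] MvPolynomial (Fin (d + 1)) ℂ :=
    MvPolynomial.aeval (Fin.cons 0 MvPolynomial.X)
  let χ : B →+* MvPolynomial (Fin (d + 1)) ℂ :=
    (ψ : _ →+* _).comp (hind.aevalEquiv.symm : B →+* MvPolynomial (Fin (d + 1 + 1)) ℂ)
  have hχ : ∀ F, χ (hind.aevalEquiv F) = ψ F := fun F =>
    congrArg ψ (hind.aevalEquiv.symm_apply_apply F)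
  have hp : (RingHom.ker χ).IsPrime := RingHom.ker_isPrime χ
  obtain ⟨Q', hQ', hQ'p⟩ := Ideal.exists_ideal_over_prime_of_isIntegral_of_isDomain
    (S := R ⧸ P) (RingHom.ker χ) (by
      rw [(RingHom.injective_iff_ker_eq_bot _).1 Subtype.val_injective]
      exact bot_le)
  have hmem : ∀ F, MvPolynomial.aeval y F ∈ Q'.comap (Ideal.Quotient.mk P) ↔ ψ F = 0 := by
    intro F
    rw [← hχ, ← RingHom.mem_ker, ← hQ'p, Ideal.mem_comap, Ideal.mem_comap,
      hind.algebraMap_aevalEquiv]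
    have e := MvPolynomial.comp_aeval_apply (f := y) (Ideal.Quotient.mkₐ ℂ P) F
    exact Iff.of_eq (congrArg (· ∈ Q') e)
  let Q₀ : Ideal R := Q'.comap (Ideal.Quotient.mk P)
  have hQ₀ : Q₀.IsPrime := Ideal.IsPrime.comap _
  let Q : Ideal R := (Q₀.homogeneousCore 𝒜).toIdeal
  have hQp : Q.IsPrime := Ideal.IsPrime.homogeneousCore hQ₀
  have hQh : Q.IsHomogeneous 𝒜 := (Q₀.homogeneousCore 𝒜).isHomogeneous
  have hQle : Q ≤ Q₀ := Ideal.toIdeal_homogeneousCore_le _ _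
  have hPQ : P ≤ Q := by
    have h1 : P ≤ Q₀ := fun x hx => by
      change Ideal.Quotient.mk P x ∈ Q'
      rw [Ideal.Quotient.eq_zero_iff_mem.2 hx]
      exact Q'.zero_mem
    have h2 := Ideal.homogeneousCore_mono 𝒜 h1
    rw [← hP.toIdeal_homogeneousCore_eq_self]
    exact h2
  have hy0 : y 0 ∈ Q := by
    refine Ideal.mem_homogeneousCore_of_homogeneous_of_mem ⟨m, hy 0⟩ ?_
    have := (hmem (MvPolynomial.X 0)).2 (by simp [ψ])
    rwa [MvPolynomial.aeval_X] at this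
  have hy0' : y 0 ∉ P := fun h0 => hind.ne_zero 0 (Ideal.Quotient.eq_zero_iff_mem.2 h0)
  have : Nontrivial (R ⧸ Q) := Ideal.Quotient.nontrivial_iff.mpr hQp.ne_top
  have hind2 : AlgebraicIndependent ℂ fun i : Fin (d + 1) => Ideal.Quotient.mk Q (y i.succ) := by
    rw [algebraicIndependent_iff]
    intro F hF
    have e := MvPolynomial.comp_aeval_apply (f := fun i : Fin (d + 1) => y i.succ)
      (Ideal.Quotient.mkₐ ℂ Q) F
    have h1 : MvPolynomial.aeval (fun i : Fin (d + 1) => y i.succ) F ∈ Q :=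
      Ideal.Quotient.eq_zero_iff_mem.1 (e.trans hF)
    have h2 := (hmem (MvPolynomial.rename Fin.succ F)).1 (by
      rw [MvPolynomial.aeval_rename]
      exact hQle h1)
    rw [MvPolynomial.aeval_rename] at h2
    have h3 : ((Fin.cons 0 MvPolynomial.X : Fin (d + 1 + 1) → MvPolynomial (Fin (d + 1)) ℂ) ∘
        Fin.succ) = MvPolynomial.X := funext fun i => rfl
    rwa [h3, MvPolynomial.aeval_X_left_apply] at h2
  have hrelQ : ¬ (𝒜 m : Set R) ⊆ Q := fun hs =>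
    hind2.ne_zero 0 (Ideal.Quotient.eq_zero_iff_mem.2 (hs (hy _)))
  obtain ⟨e, w, E, -, hw, hwint, hE, hTSQ⟩ := prime_data h hQp hQh hrelQ
  refine ⟨Q, hQp, hQh, lt_of_le_of_ne hPQ fun h1 => hy0' (h1 ▸ hy0), hrelQ, e, E, hE, hTSQ, ?_⟩
  have hw' : IsTranscendenceBasis ℂ (fun i => Ideal.Quotient.mk Q (w i)) := by
    rw [hw.isTranscendenceBasis_iff_isAlgebraic]
    exact ⟨fun a => (hwint a).isAlgebraic⟩
  have h1 := hind2.lift_cardinalMk_le_trdeg
  rw [← hw'.lift_cardinalMk_eq_trdeg] at h1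
  simp only [Cardinal.mk_fin, Cardinal.lift_natCast] at h1
  have : d + 1 ≤ e + 1 := by exact_mod_cast h1
  omega

theorem dim_closure {X : AlgebraicGeometry.Scheme.{0}} (y : X) :
    topologicalKrullDim (closure ({y} : Set X)) = (height y : ℕ∞) := by
  rw [height_eq_krullDim_Iic]
  have : QuasiSober (closure ({y} : Set X)) :=
    isClosed_closure.isClosedEmbedding_subtypeVal.quasiSober
  refine (@krullDim_eq_of_orderIso _ _ _ (specializationOrder (closure ({y} : Set X))).toPreorder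
    irreducibleSetEquivPoints).trans ?_
  exact @krullDim_eq_of_orderIso _ _ (specializationOrder (closure ({y} : Set X))).toPreorder _
    ⟨⟨fun w => ⟨w.1, specializes_iff_mem_closure.2 w.2⟩,
      fun w => ⟨w.1, specializes_iff_mem_closure.1 w.2⟩, fun _ => rfl, fun _ => rfl⟩,
      fun {a b} => (Topology.IsInducing.subtypeVal.specializes_iff : b.1 ⤳ a.1 ↔ b ⤳ a)⟩

end Vale.Agent.N271X
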