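import Vale.Agent.P271L61.Defs

/-!
# The degree of a subvariety with respect to an ample line bundle
-/

open CategoryTheory AlgebraicGeometry Filter Topology Vale.Agent.P271L

namespace Vale.Agent.N271X

variable {X : Scheme.{0}}

/-- The dimension of the space of the restrictions to `Z` of the global sections of `M`: the
largest number of global sections of `M` such that only their trivial `ℂ`-linear combination
vanishes at all points of `Z`. -/
noncomputable def resDim (f : X ⟶ Spec (CommRingCat.of ℂ)) (M : X.Modules) (Z : Set X) : ℕ :=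
  sSup {r : ℕ | ∃ s : Fin r → Γ(M, ⊤), ∀ c : Fin r → ℂ,
    (∀ z ∈ Z, VanishesAt (∑ i, cst f ⊤ (c i) • s i) z) → c = 0}

/-- The restrictions to `Z` of the global sections of `L^k` form a space of dimension
`e k^d / d! + o(k^d)`. For `L` ample and `Z` a subvariety of dimension `d`, the number `e` is the
degree `L^d · Z` of `Z`. -/
def IsDegree (f : X ⟶ Spec (CommRingCat.of ℂ)) (L : X.Modules) (Z : Set X) (d : ℕ) (e : ℝ) :
    Prop :=
  Tendsto (fun k : ℕ => (d.factorial : ℝ) * resDim f (pow L k) Z / (k : ℝ) ^ d) atTop (𝓝 e)

end Vale.Agent.N271X
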