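import Vale.Agent.N271X.Cone
import Vale.Agent.N271X.Defs
import Vale.Agent.P271L61.F

/-!
# The numerical criterion: from divisors to invertible sheaves
-/

set_option linter.all false

open CategoryTheory Opposite AlgebraicGeometry TopologicalSpace Order Filter Topology

noncomputable section

namespace Vale.Agent.N271X

open Vale.Agent.P299.G Vale.Agent.P299 Vale.Agent.P271 Vale.Agent.P271L

/-- The lengths of the families of sections of `kD` which are independent on the closure of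
`y`. -/
def FSet {n : ℕ} {V : Fuj.Var n} (D : V.Div) (y : V.X) (k : ℕ) : Set ℕ :=
  {r | ∃ s : Fin r → V.K, (∀ i, Fuj.Var.IsSection (k • D) (s i)) ∧ ∀ c : Fin r → ℂ,
    ¬ Fuj.Var.GeneratesAt (k • D) (∑ i, algebraMap ℂ V.K (c i) * s i) y → c = 0}

/-- The degree of the closure of `y`. -/
def FDeg {n : ℕ} {V : Fuj.Var n} (D : V.Div) (y : V.X) (d : ℕ) (e : ℝ) : Prop :=
  Tendsto (fun k : ℕ => (d.factorial : ℝ) * (sSup (FSet D y k) : ℕ) / (k : ℝ) ^ d) atTop (𝓝 e)

/-- The variety in the language `Q`. -/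
abbrev toQ {n : ℕ} (V : Fuj.Var n) {D : V.Div} (hD : Fuj.Var.IsAmple D) : Q.Var :=
  S.qv { V.toS with ample := ⟨D, (Fuj.Var.isAmple_iff D).1 hD⟩ }

theorem fDeg_of {n : ℕ} (V : Fuj.Var n) {D : V.Div} (hD : Fuj.Var.IsAmple D) {y : V.X} {d : ℕ}
    {e : ℝ} (h : QDeg (V := toQ V hD) D y d e) : FDeg D y d e := by
  have hset : ∀ k : ℕ, QSet (V := toQ V hD) D y k = FSet D y k := by
    intro k
    ext r
    refine exists_congr fun s => and_congr (forall_congr' fun i => ?_)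
      (forall_congr' fun c => imp_congr_left (not_congr ?_))
    · exact (S.mem_H0_iff (X := toQ V hD) (k • D) _).trans (Fuj.Var.isSection_iff (k • D) _).symm
    · exact (S.genAt_iff (X := toQ V hD) (k • D) _ y).trans
        (Fuj.Var.generatesAt_iff (k • D) _ y).symm
  refine Tendsto.congr (fun k => ?_) h
  rw [hset]

theorem deg_div {n : ℕ} (V : Fuj.Var n) {D : V.Div} (hD : Fuj.Var.IsAmple D) (y : V.X) :
    ∃ d ℓ : ℕ, height y = d ∧ 0 < ℓ ∧ FDeg D y d ℓ ∧ (y = genericPoint V.X → d = n) := by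
  have hS := (Fuj.Var.isAmple_iff D).1 hD
  have hdim : (toQ V hD).dim = n := Sch.dim_eq_of_smooth' hS V.smooth
  obtain ⟨d, ℓ, h1, h2, h3, h4⟩ := exists_qDeg (V := toQ V hD) (L := D)
    ((S.isAmple_iff (X := toQ V hD) D).2 hS) y
  exact ⟨d, ℓ, h1, h2, fDeg_of V hD h3, fun h => (h4 h).trans hdim⟩

theorem num_div {n : ℕ} (V : Fuj.Var n) {κ D : V.Div} (hκ : Fuj.Var.IsCanonical κ)
    (hD : Fuj.Var.IsAmple D) {x : V.X} (hx : IsClosed ({x} : Set V.X)) {a b : ℝ}
    (ha : (n : ℝ) + 1 ≤ a) (hb : 0 < b) (hab : (n : ℝ) + 1 ≤ b ∨ n / b + 1 / a < 1)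
    (htop : ∀ e : ℝ, FDeg D (genericPoint V.X) n e → a ^ n ≤ e)
    (hlow : ∀ y : V.X, y ⤳ x → y ≠ genericPoint V.X → ∀ d : ℕ, 1 ≤ d → height y = d →
      ∀ e : ℝ, FDeg D y d e → b ^ d ≤ e) :
    ∃ s : V.K, Fuj.Var.IsSection (κ + 1 • D) s ∧ Fuj.Var.GeneratesAt (κ + 1 • D) s x := by
  have hS := (Fuj.Var.isAmple_iff D).1 hD
  have hdim : (toQ V hD).dim = n := Sch.dim_eq_of_smooth' hS V.smooth
  obtain ⟨s, hs, hsx⟩ := qNum (V := toQ V hD) (L := D) (κ := κ)
    ((S.isCanonical_iff (X := toQ V hD) κ).2 ((Fuj.Var.isCanonical_iff hD κ).1 hκ))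
    ((S.isAmple_iff (X := toQ V hD) D).2 hS) hdim hx ha hb hab
    (fun e h => htop e (fDeg_of V hD h))
    fun y hy hy0 d hd hyd e h => hlow y hy hy0 d hd hyd e (fDeg_of V hD h)
  exact ⟨s, (Fuj.Var.isSection_iff _ _).2 ((S.mem_H0_iff (X := toQ V hD) _ s).1 hs),
    (Fuj.Var.generatesAt_iff _ _ _).2 ((S.genAt_iff (X := toQ V hD) _ s x).1 hsx)⟩

theorem exists_div {n : ℕ} (V : Fuj.Var n) [IsNoetherian V.X]
    (hreg : ∀ y : V.X, coheight y = 1 → IsDiscreteValuationRing (V.X.presheaf.stalk y))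
    (hufd : ∀ x : V.X, UniqueFactorizationMonoid (V.X.presheaf.stalk x)) {L : V.X.Modules}
    (hL : IsLineBundle L) (hA : IsAmple L) :
    ∃ (T : Ev (pv L) V.X.functionField) (u : V.X → V.X.functionField) (D : V.Div),
      (∀ x, Fr T x (u x)) ∧ Fuj.Var.IsAmple D ∧ ∀ (k : ℕ) (y : V.X) (hy : coheight y = 1),
        (k • D) (pd V y hy) = -Scheme.ord (u y ^ k) y := by
  obtain ⟨T, hT⟩ := exists_ev_of_isLineBundle hL
  choose u hu using hT
  let D : V.Div := Finsupp.ofSupportFinite (fun y => -Scheme.ord (X := V.X) (u y.1) y.1)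
    (((finite_ord hu).preimage Subtype.val_injective.injOn).subset
      fun y hy => ⟨y.2, fun h => hy (neg_eq_zero.2 h)⟩)
  have hD : ∀ (k : ℕ) (y : V.X) (hy : coheight y = 1),
      (k • D) (pd V y hy) = -Scheme.ord (u y ^ k) y := by
    intro k y hy
    rw [Q.ord_pow (hu y).1, ← mul_neg, ← nsmul_eq_mul]
    rfl
  refine ⟨T, u, D, hu, fun z => ?_, hD⟩
  obtain ⟨k, s, U, hk, hU, hz, h⟩ := hA z
  obtain ⟨T1, h2⟩ := exists_ev_pow T k
  have h3 : ∀ y, Fr T1 y (u y ^ k) := fun y => h2 y _ (hu y)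
  exact ⟨k, T1.θ ⊤ trivial s, U, hk,
    (isSection_iff V (hD k) _).2 fun h0 y _ => ord_le_sec h3 s h0 y, hU, hz, fun y => (h y).trans
    ((not_vanishesAt_iff h3 hreg hufd s y).trans (generatesAt_iff V (hD k) _ y).symm)⟩

theorem isDegree_of {n : ℕ} (V : Fuj.Var n) [IsNoetherian V.X]
    (hreg : ∀ y : V.X, coheight y = 1 → IsDiscreteValuationRing (V.X.presheaf.stalk y))
    (hufd : ∀ x : V.X, UniqueFactorizationMonoid (V.X.presheaf.stalk x)) {L : V.X.Modules}
    {T : Ev (pv L) V.X.functionField} {u : V.X → V.X.functionField} {D : V.Div}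
    (hu : ∀ x, Fr T x (u x)) (hD : ∀ (k : ℕ) (y : V.X) (hy : coheight y = 1),
      (k • D) (pd V y hy) = -Scheme.ord (u y ^ k) y) {w : V.X} {d : ℕ} {e : ℝ}
    (h : FDeg D w d e) : IsDegree V.str L (closure {w}) d e := by
  let _ : Algebra ℂ V.X.functionField := Fuj.Var.instAlgebraK V
  have hf : P297L.Compat (X := V.X) V.str := fun c =>
    (gk_r (X := V.X) (W := ⊤) (W' := ⊤) le_top trivial _).symm
  have hset : ∀ (y : V.X) (k : ℕ), resDim V.str (pow L k) (closure {y}) = sSup (FSet D y k) := by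
    intro y k
    obtain ⟨T1, h2⟩ := exists_ev_pow T k
    have h3 : ∀ y, Fr T1 y (u y ^ k) := fun y => h2 y _ (hu y)
    have h4 : ∀ (s : Γ(pow L k, ⊤)) (z : V.X), ¬ VanishesAt s z ↔
        Fuj.Var.GeneratesAt (k • D) (T1.θ ⊤ trivial s) z := fun s z =>
      (not_vanishesAt_iff h3 hreg hufd s z).trans (generatesAt_iff V (hD k) _ z).symm
    have h5 : ∀ s : Γ(pow L k, ⊤), (∀ z ∈ closure ({y} : Set V.X), VanishesAt s z) ↔
        ¬ Fuj.Var.GeneratesAt (k • D) (T1.θ ⊤ trivial s) y := by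
      intro s
      refine ⟨fun h h' => (h4 s y).2 h' (h y (subset_closure rfl)), fun h z hz => ?_⟩
      by_contra hc
      have h6 := (h4 s z).1 hc
      have h7 : y ⤳ z := specializes_iff_mem_closure.2 hz
      exact h ⟨h6.1, fun w hw => h6.2 w (Specializes.trans hw h7)⟩
    have h6 : ∀ (r : ℕ) (s : Fin r → Γ(pow L k, ⊤)) (c : Fin r → ℂ),
        T1.θ ⊤ trivial (∑ i, cst V.str ⊤ (c i) • s i : Γ(pow L k, ⊤)) =
          ∑ i, algebraMap ℂ V.X.functionField (c i) * T1.θ ⊤ trivial (s i) := by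
      intro r s c
      refine (map_sum (T1.θ ⊤ trivial) _ _).trans (Finset.sum_congr rfl fun i _ => ?_)
      rw [hf]
      exact T1.smul ⊤ trivial _ _
    refine congrArg sSup ?_
    ext r
    constructor
    · rintro ⟨s, hs⟩
      refine ⟨fun i => T1.θ ⊤ trivial (s i), fun i =>
        (isSection_iff V (hD k) _).2 fun h0 y _ => ord_le_sec h3 (s i) h0 y,
        fun c hc => hs c ((h5 _).2 ?_)⟩
      rw [h6]
      exact hc
    · rintro ⟨g, hg, hs⟩
      have h7 : ∀ i, ∃ s : Γ(pow L k, ⊤), T1.θ ⊤ trivial s = g i := by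
        intro i
        by_cases h0 : g i = 0
        · exact ⟨0, (map_zero (T1.θ ⊤ trivial)).trans h0.symm⟩
        · exact exists_sec h3 hreg hufd h0 ((isSection_iff V (hD k) _).1 (hg i) h0)
      choose s hsg using h7
      refine ⟨s, fun c hc => hs c ?_⟩
      have h8 := (h5 _).1 hc
      rw [h6] at h8
      simp only [hsg] at h8
      exact h8
  refine Tendsto.congr (fun k => ?_) h
  rw [hset]

theorem deg_var (n : ℕ) (V : Fuj.Var n) (L : V.X.Modules) (hL : IsLineBundle L) (aL : IsAmple L)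
    (Z : Set V.X) (hZ : IsIrreducible Z) (hc : IsClosed Z) :
    ∃ d e : ℕ, topologicalKrullDim Z = d ∧ 0 < e ∧ IsDegree V.str L Z d e ∧
      (Z = Set.univ → d = n) := by
  have hs : SmoothOfRelativeDimension n (Y := Spec (CommRingCat.of ℂ)) V.str := V.smooth
  have : CompactSpace Fuj.SpecC := inferInstanceAs (CompactSpace (Spec (CommRingCat.of ℂ)))
  have : CompactSpace V.X := QuasiCompact.compactSpace_of_compactSpace V.str
  have : IsNoetherian V.X := {}
  let _ : V.X.Over Q.SpecC := ⟨V.str⟩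
  have : Smooth (V.X ↘ Q.SpecC) := SmoothOfRelativeDimension.smooth n V.str
  have hreg : ∀ y : V.X, coheight y = 1 → IsDiscreteValuationRing (V.X.presheaf.stalk y) :=
    (Q.regOne_of_smooth V.X).dvr
  have hufd : ∀ x : V.X, UniqueFactorizationMonoid (V.X.presheaf.stalk x) :=
    Q.ufd_stalk_of_smooth V.X
  obtain ⟨T, u, D, hu, hDA, hD⟩ := exists_div V hreg hufd hL aL
  obtain ⟨y, hy⟩ := QuasiSober.sober hZ hc
  obtain rfl : closure {y} = Z := hy
  obtain ⟨d, ℓ, h1, h2, h3, h4⟩ := deg_div V hDA y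
  exact ⟨d, ℓ, (dim_closure y).trans (congrArg _ h1), h2, isDegree_of V hreg hufd hu hD h3,
    fun h => h4 (IsGenericPoint.eq (S := Set.univ) h (genericPoint_spec V.X))⟩

theorem num_var (n : ℕ) (V : Fuj.Var n) (L : V.X.Modules) (hL : IsLineBundle L) (aL : IsAmple L)
    {x : V.X} (hx : IsClosed ({x} : Set V.X)) {a b : ℝ}
    (ha : (n : ℝ) + 1 ≤ a) (hb : 0 < b) (hab : (n : ℝ) + 1 ≤ b ∨ n / b + 1 / a < 1)
    (htop : ∀ e : ℝ, IsDegree V.str L Set.univ n e → a ^ n ≤ e)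
    (hlow : ∀ Z : Set V.X, IsIrreducible Z → IsClosed Z → x ∈ Z → Z ≠ Set.univ → ∀ d : ℕ, 1 ≤ d →
      topologicalKrullDim Z = d → ∀ e : ℝ, IsDegree V.str L Z d e → b ^ d ≤ e) :
    ∃ s : Γ(tensor (canonical V.str n) L, ⊤), ¬ VanishesAt s x := by
  let _ : Algebra ℂ V.X.functionField := Fuj.Var.instAlgebraK V
  have hf : P297L.Compat (X := V.X) V.str := fun c =>
    (gk_r (X := V.X) (W := ⊤) (W' := ⊤) le_top trivial _).symm
  have hs : SmoothOfRelativeDimension n (Y := Spec (CommRingCat.of ℂ)) V.str := V.smooth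
  have : CompactSpace Fuj.SpecC := inferInstanceAs (CompactSpace (Spec (CommRingCat.of ℂ)))
  have : CompactSpace V.X := QuasiCompact.compactSpace_of_compactSpace V.str
  have : IsNoetherian V.X := {}
  let _ : V.X.Over Q.SpecC := ⟨V.str⟩
  have : Smooth (V.X ↘ Q.SpecC) := SmoothOfRelativeDimension.smooth n V.str
  have hreg : ∀ y : V.X, coheight y = 1 → IsDiscreteValuationRing (V.X.presheaf.stalk y) :=
    (Q.regOne_of_smooth V.X).dvr
  have hufd : ∀ x : V.X, UniqueFactorizationMonoid (V.X.presheaf.stalk x) :=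
    Q.ufd_stalk_of_smooth V.X
  obtain ⟨T, u, D, hu, hDA, hD⟩ := exists_div V hreg hufd hL aL
  have hgen : closure ({genericPoint V.X} : Set V.X) = Set.univ := genericPoint_spec V.X
  obtain ⟨κ, hκ⟩ := Fuj.Var.exists_isCanonical hDA
  obtain ⟨g, hg, hgx⟩ := num_div V hκ hDA hx ha hb hab
    (fun e h => htop e (hgen ▸ isDegree_of V hreg hufd hu hD h))
    fun y hy hy0 d hd hyd e h => hlow _ isIrreducible_singleton.closure isClosed_closure
      (specializes_iff_mem_closure.1 hy)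
      (fun h1 => hy0 (IsGenericPoint.eq (S := Set.univ) h1 hgen)) d hd
      ((dim_closure y).trans (congrArg _ hyd)) e (isDegree_of V hreg hufd hu hD h)
  obtain ⟨ω, ⟨v, hv⟩, hω⟩ := hκ
  obtain ⟨T0, h0⟩ := P297L.exists_ev_canonical hf ω (v := v) hv
  choose d hd0 hF hd using h0
  have hp : ∀ (w : V.Der) (y : V.X),
      Fuj.Var.IsRegularFieldAt w y ↔ P297L.Pres (X := V.X) w y := fun w y =>
    ⟨fun h a => (h _ ⟨a, rfl⟩).imp fun _ h => h.symm,
      fun h _ ⟨a, ha⟩ => ha ▸ (h a).imp fun _ h => h.symm⟩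
  let o : V.X → V.X.functionField := fun y => ω (d y)
  have ho : ∀ y, o y ≠ 0 := hd0
  have hκy : ∀ (y : V.X) (hy : coheight y = 1), κ (pd V y hy) = Scheme.ord (o y) y := by
    intro y hy
    refine le_antisymm ((hω (pd V y hy)).2 ⟨d y,
      fun i => (hp _ _).2 ((hd y y specializes_rfl).1 i), hd0 y, rfl⟩) ?_
    obtain ⟨w, hw, hw0, h5⟩ := (hω (pd V y hy)).1
    obtain ⟨c, hc⟩ := (hd y y specializes_rfl).2 w fun i => (hp _ _).1 (hw i)
    have h6 : toK y c * o y ≠ 0 := fun h => hw0 (hc.trans h)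
    have h7 : κ (pd V y hy) = Scheme.ord (toK y c * o y) y :=
      h5.symm.trans (congrArg (fun t => Scheme.ord (X := V.X) t y) hc)
    rw [h7, Scheme.ord_mul (left_ne_zero_of_mul h6) (ho y)]
    exact le_add_of_nonneg_left (ord_toK_nonneg c)
  obtain ⟨T2, h3⟩ := exists_ev_tensor T0 T
  have h4 : ∀ y, Fr T2 y ((o y)⁻¹ * u y ^ 1) := fun y => by
    rw [pow_one]
    exact h3 y _ _ (hF y) (hu y)
  have h5 : ∀ (y : V.X) (hy : coheight y = 1), (κ + 1 • D) (pd V y hy) =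
      -Scheme.ord ((o y)⁻¹ * u y ^ 1) y := by
    intro y hy
    rw [Finsupp.add_apply, hD, hκy, Scheme.ord_mul (inv_ne_zero (ho y))
      (pow_ne_zero 1 (hu y).1), Q.ord_inv (ho y), neg_add, neg_neg]
  have h6 := (generatesAt_iff V h5 g x).1 hgx
  obtain ⟨s, hs⟩ := exists_sec h4 hreg hufd (g := g) h6.1 ((isSection_iff V h5 g).1 hg h6.1)
  refine ⟨s, (not_vanishesAt_iff h4 hreg hufd s x).2 ?_⟩
  rw [hs]
  exact h6

/-- **The numerical criterion.** -/
theorem num_main (n : ℕ) (X : Scheme.{0}) (f : X ⟶ Spec (CommRingCat.of ℂ))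
    [hs : SmoothOfRelativeDimension n f] [hp : IsProper f] [ConnectedSpace X] (L : X.Modules)
    (hL : IsLineBundle L) (aL : IsAmple L) {x : X} (hx : IsClosed ({x} : Set X)) {a b : ℝ}
    (ha : (n : ℝ) + 1 ≤ a) (hb : 0 < b) (hab : (n : ℝ) + 1 ≤ b ∨ n / b + 1 / a < 1)
    (htop : ∀ e : ℝ, IsDegree f L Set.univ n e → a ^ n ≤ e)
    (hlow : ∀ Z : Set X, IsIrreducible Z → IsClosed Z → x ∈ Z → Z ≠ Set.univ → ∀ d : ℕ, 1 ≤ d →
      topologicalKrullDim Z = d → ∀ e : ℝ, IsDegree f L Z d e → b ^ d ≤ e) :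
    ∃ s : Γ(tensor (canonical f n) L, ⊤), ¬ VanishesAt s x :=
  have := SmoothOfRelativeDimension.smooth n f
  num_var n
    { X := X, str := f, int := P297G93.isIntegral_of_smooth f, smooth := hs, proper := hp }
    L hL aL hx ha hb hab htop hlow

/-- **Degrees exist.** -/
theorem deg_main (n : ℕ) (X : Scheme.{0}) (f : X ⟶ Spec (CommRingCat.of ℂ))
    [hs : SmoothOfRelativeDimension n f] [hp : IsProper f] [ConnectedSpace X] (L : X.Modules)
    (hL : IsLineBundle L) (aL : IsAmple L) (Z : Set X) (hZ : IsIrreducible Z) (hc : IsClosed Z) :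
    ∃ d e : ℕ, topologicalKrullDim Z = d ∧ 0 < e ∧ IsDegree f L Z d e ∧ (Z = Set.univ → d = n) :=
  have := SmoothOfRelativeDimension.smooth n f
  deg_var n
    { X := X, str := f, int := P297G93.isIntegral_of_smooth f, smooth := hs, proper := hp }
    L hL aL Z hZ hc

/-- **The numerical criterion with the constant `n + 1`.** -/
theorem num_unif (n : ℕ) (hn : 1 ≤ n) (X : Scheme.{0}) (f : X ⟶ Spec (CommRingCat.of ℂ))
    [hs : SmoothOfRelativeDimension n f] [hp : IsProper f] [ConnectedSpace X] (L : X.Modules)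
    (hL : IsLineBundle L) (aL : IsAmple L) {x : X} (hx : IsClosed ({x} : Set X))
    (h : ∀ Z : Set X, IsIrreducible Z → IsClosed Z → x ∈ Z → ∀ d : ℕ, 1 ≤ d →
      topologicalKrullDim Z = d → ∀ e : ℝ, IsDegree f L Z d e → ((n : ℝ) + 1) ^ d ≤ e) :
    ∃ s : Γ(tensor (canonical f n) L, ⊤), ¬ VanishesAt s x := by
  have := SmoothOfRelativeDimension.smooth n f
  have := P297G93.isIntegral_of_smooth f
  have hI : IsIrreducible (Set.univ : Set X) := IrreducibleSpace.isIrreducible_univ X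
  obtain ⟨d, -, h1, -, -, h2⟩ := deg_main n X f L hL aL Set.univ hI isClosed_univ
  exact num_main n X f L hL aL hx le_rfl (by positivity) (Or.inl le_rfl)
    (h _ hI isClosed_univ trivial n hn (h2 rfl ▸ h1)) fun Z h3 h4 h5 _ => h Z h3 h4 h5

end Vale.Agent.N271X
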