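import Vale.Agent.P271.H27.ConcStat

/-!
# The concentrated functional is small for all small `x₀`
-/

set_option linter.all false

open Metric Set Topology Filter Asymptotics Module Finsupp

namespace Vale.Agent.N271X

open Vale.Agent.P271 Vale.Agent.P271.H27
open Vale.Agent.P271.Sch Vale.Agent.P271.H741 Vale.Agent.P271.Main Vale.Agent.P271.Inst
  Vale.Agent.P271.Exp Vale.Agent.P271.Filt Vale.Agent.P271.Filt.Wt Vale.Agent.P271.Chain
  Vale.Agent.P271.H43 Vale.Agent.P271.H58 Vale.Agent.P271.Deg Vale.Agent.P271.Drop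

variable {n : ℕ} {C : GCone n}

/-- The field `conc`, for all small `x₀`. -/
theorem conc_small (S : CSys C) (z : NVPt C)
    (hES : (S.D z).P = ES (n + 1) (fun h : HM C => (h : C.R)) z.1) (hn : 1 ≤ n) {m1 : ℕ}
    (h : Ver.VerOK C.A m1) [∀ k, FiniteDimensional ℂ (C.A k)] (R : ℝ) (hR : 0 < R) :
    ∃ x₁ : ℝ, 0 < x₁ ∧ x₁ < 1 ∧ ∀ x₀ : ℝ, 0 < x₀ → x₀ ≤ x₁ → ∃ T₀ : ℕ, ∀ T ≥ T₀, ∀ G : Wt ℂ (VA C m1 T),
      Dom (Hz C z.1 m1 T) G →
        R * H43.S (kap1 (m1 * T) x₀ (finrank ℂ (VA C m1 T))) G ≤ S.a z m1 T G := by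
  obtain ⟨c⟩ := H242.nonempty_chart C z.2
  obtain ⟨K, hK⟩ := exists_nat_ge (2 * R)
  obtain ⟨D, hD, m₀, hcod⟩ := exists_codim hn z.2 c K
  obtain ⟨B, hB, hN⟩ := exists_finrank_le z.2 h
  have hm1 : 0 < m1 := h.pos
  have hD' : (0 : ℝ) < D := by exact_mod_cast hD
  have hm1' : (0 : ℝ) < m1 := by exact_mod_cast hm1
  set κ : ℝ := ((m1 : ℝ) / D) ^ n with hκ
  have hκ0 : 0 < κ := by positivity
  obtain ⟨T₁, hT₁⟩ := exists_nat_ge (2 / κ)
  refine ⟨min (1 / 2) (κ / (2 * B)), by positivity, ?_, fun x₀ hx0pos hx₀ =>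
    ⟨max (max m₀ T₁) 1, fun T hT G hG => ?_⟩⟩
  · exact lt_of_le_of_lt (min_le_left _ _) (by norm_num)
  have hT1 : 1 ≤ T := (le_max_right _ _).trans hT
  have hTm : m₀ ≤ m1 * T := by
    have h1 : m₀ ≤ T := ((le_max_left _ _).trans (le_max_left _ _)).trans hT
    exact h1.trans (Nat.le_mul_of_pos_left _ hm1)
  have hTT : T₁ ≤ T := ((le_max_right _ _).trans (le_max_left _ _)).trans hT
  have hT0' : (1 : ℝ) ≤ T := by exact_mod_cast hT1
  obtain ⟨μ, hμ, hcd⟩ := hcod (m1 * T) hTm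
  set N := finrank ℂ (VA C m1 T) with hNdef
  set M := msz x₀ N with hM
  -- the size of `M`
  have hMle : (M : ℝ) ≤ (((m1 * T : ℕ) : ℝ) / D) ^ n := by
    have h1 : (M : ℝ) < x₀ * N + 1 := by
      rw [hM]; unfold msz
      exact Nat.ceil_lt_add_one (by positivity)
    have h2 : x₀ * (N : ℝ) ≤ κ / 2 * (T : ℝ) ^ n := by
      calc x₀ * (N : ℝ) ≤ κ / (2 * B) * (B * (T : ℝ) ^ n) := by
            refine mul_le_mul (hx₀.trans (min_le_right _ _)) (hN T hT1) (by positivity) (by positivity)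
        _ = κ / 2 * (T : ℝ) ^ n := by field_simp
    have h3 : 1 ≤ κ / 2 * (T : ℝ) ^ n := by
      have h4 : 2 / κ ≤ (T : ℝ) ^ n := by
        refine hT₁.trans ((Nat.cast_le.2 hTT).trans ?_)
        exact le_self_pow₀ hT0' (by omega)
      calc (1 : ℝ) = κ / 2 * (2 / κ) := by field_simp
        _ ≤ _ := by gcongr
    have h5 : (((m1 * T : ℕ) : ℝ) / D) ^ n = κ * (T : ℝ) ^ n := by
      rw [hκ, Nat.cast_mul, mul_div_right_comm, mul_pow]
    rw [h5]
    linarith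
  have hJ : finrank ℂ (ordSub c (VA C m1 T) μ) + M ≤ finrank ℂ (VA C m1 T) := by
    have h1 : (finrank ℂ (ordSub c (VA C m1 T) μ) : ℝ) + M ≤ finrank ℂ (VA C m1 T) := by
      refine le_trans ?_ hcd
      exact add_le_add le_rfl hMle
    exact_mod_cast h1
  -- the slope bound
  have hGE : Dom (S.E.Hz z (VA C m1 T)) G := by
    rw [S.Hz_eq]; exact hG
  have hsl : VSl (S.E.P z) (VA C m1 T).subtype G.w (S.a z m1 T G) := by
    rw [← S.E.a_le_iff (V := VA C m1 T) HmOf_of_mem hGE]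
    exact le_rfl
  have ha0 : 0 ≤ S.a z m1 T G := hsl.nonneg (S.E.isExp z).zero_mem
  have hw : ∀ x : VA C m1 T, x ∉ ordSub c (VA C m1 T) μ → G.w x ≤ 2 * (μ + 1) * S.a z m1 T G := by
    intro x hx
    have hx0 : x ≠ 0 := by
      rintro rfl
      exact hx (Submodule.zero_mem _)
    have hxm : (x : C.R) ∈ HM C := ⟨by simpa using hx0, m1 * T, x.2⟩
    have ht : (1 / (2 * ((μ : ℝ) + 1))) * (2 * (μ + 1)) ≤ 1 := by
      rw [one_div_mul_cancel (by positivity)]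
    have h1 := H242.mult_extP C c hxm (k := μ) hx (t := 1 / (2 * ((μ : ℝ) + 1))) (by positivity) ht
    rw [← hES, ← S.P_eq] at h1
    have h2 := hsl (single x (1 / (2 * ((μ : ℝ) + 1)))) (single_nonneg' (by positivity))
      (by rw [Finsupp.mapDomain_single]; exact h1)
    rw [dot_single, one_div, ← div_eq_inv_mul, div_le_iff₀ (by positivity)] at h2
    linarith
  have h6 := H965.conc (F := G) hJ hw
  -- conclusion
  have h7 : kap1 ((m1 : ℝ) * T) x₀ N =
      (1 / ((m1 : ℝ) * T * M)) • H965.κc N M := by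
    funext i
    simp only [kap1, H507.kap, H965.κc, Pi.smul_apply, smul_eq_mul, zero_add]
    split_ifs <;> simp [hM]
  rw [h7, S_smul]
  rcases Nat.eq_zero_or_pos M with hM0 | hM0
  · rw [hM0]
    simpa using ha0
  have hM0' : (0 : ℝ) < M := by exact_mod_cast hM0
  have hT0 : (0 : ℝ) < T := by linarith
  have h8 : 2 * R * ((μ : ℝ) + 1) ≤ m1 * T := by
    have h9 : (K : ℝ) * (μ + 1) ≤ m1 * T := by exact_mod_cast hμ
    refine le_trans ?_ h9
    gcongr
  calc R * (1 / ((m1 : ℝ) * T * M) * H43.S (H965.κc N M) G)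
      ≤ R * (1 / ((m1 : ℝ) * T * M) * (M * (2 * (μ + 1) * S.a z m1 T G))) := by
        gcongr
    _ = (2 * R * ((μ : ℝ) + 1)) * S.a z m1 T G / (m1 * T) := by
        field_simp
    _ ≤ (m1 * T) * S.a z m1 T G / (m1 * T) := by gcongr
    _ = S.a z m1 T G := by field_simp

end Vale.Agent.N271X
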