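import Vale.Agent.P271.Uni.EqStat

/-!
# The equality case at the scale `q`: `L ^ n = q ^ n`
-/

set_option linter.all false

open Filter Topology Asymptotics Metric

namespace Vale.Agent.N271X

open Vale.Agent.P271 Vale.Agent.P271.Eq Vale.Agent.P271.Sch Vale.Agent.P271.H741
  Vale.Agent.P271.Inst
open scoped Vale.Agent.P271.Inst

variable {n : ℕ} {C : GCone n} {φ : C.Pt}

/-- **No prime strictly between the base ideal and the orbit.** -/
theorem no_primeq [∀ m, FiniteDimensional ℂ (C.A m)] (hn : 1 ≤ n) (P : HParam C φ)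
    (c : Chart φ (n + 1))
    (hc : ∀ j, c.t j = P.X j - algebraMap ℂ C.R (φ (P.X j))) (hch : ChainRule P c) (Δ : Ders P)
    {q : ℕ} (hq : 0 < q) {l : Filter ℕ} [l.NeBot] (hl : l ≤ atTop)
    (hN : Tendsto (fun m => (Module.finrank ℂ (C.A (m / q)) : ℝ) / (m : ℝ) ^ n) l
      (𝓝 (1 / (n.factorial : ℝ))))
    (hT : ∀ ε : ℝ, 0 < ε → ∀ᶠ m in l,
      ((∑ k ∈ Finset.range m, Module.finrank ℂ (ordA φ (m / q) (k + 1)) : ℕ) : ℝ) ≤
        ((n : ℝ) / (n + 1) + ε) * (m * Module.finrank ℂ (C.A (m / q))))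
    {t : ℝ} (ht0 : 0 < t) (ht1 : t < 1)
    {Q : Ideal C.R} [hQp : Q.IsPrime] (hQ : Q ≤ pI φ)
    (hbase : ∀ m : ℕ, 1 ≤ m → ∀ k : ℕ, t * q * m ≤ k → ∀ s ∈ C.A m, s ∈ pI φ ^ k → s ∈ Q)
    {e : ℕ} {g : C.R} (hge : g ∈ C.A e) (hφg : φ g = 0) : g ∈ Q := by
  by_contra hg
  obtain ⟨r, hr, hrρ, hgrad⟩ := exists_grad hch Δ
  have hpt : ∀ j : ℕ, ∃ y : Fin n → ℂ, ‖y‖ < min r (1 / (j + 1)) ∧ y ≠ 0 ∧
      ∀ m, ∀ s ∈ C.A m, s ∈ Q → c.ψ (sl y) s = 0 := fun j =>
    exists_slice_point P c hc hQ hge hg hφg (by positivity)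
  choose y hy1 hy2 hy3 using hpt
  have hslb : ∀ x ∈ ball (0 : Fin n → ℂ) r, sl x ∈ ball (0 : Fin (n + 1) → ℂ) c.ρ := by
    intro x hx
    rw [mem_ball_zero_iff] at hx ⊢
    rw [norm_sl]
    exact lt_of_lt_of_le hx hrρ
  have hana : ∀ (m : ℕ) (v : C.A m), ∀ x ∈ ball (0 : Fin n → ℂ) r, AnalyticAt ℂ (ιs c m v) x := by
    intro m v x hx
    have h1 : AnalyticAt ℂ (fun x => c.ψ x (v : C.R)) (slL x) := by
      rw [slL_apply]
      exact c.holo (v : C.R) _ (hslb x hx)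
    have h2 := AnalyticAt.comp h1 ((slL (n := n)).analyticAt x)
    refine h2.congr (Eventually.of_forall fun z => ?_)
    show c.ψ (slL z) (v : C.R) = c.ψ (sl z) (v : C.R)
    rw [slL_apply]
  refine loc_false (V := fun m => C.A (m / q)) (I := Fin (n + 1)) (M₁ := q * Δ.M₁)
    (fun m => ιs c (m / q))
    (fun i m s => ⟨Δ.θ i s, by
      rw [Nat.add_mul_div_left _ _ hq]
      exact Δ.deg i (m / q) s s.2⟩) hn hr
    (fun m v x hx => (hana _ v x hx).differentiableAt.differentiableWithinAt)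
    (fun m v => hana _ v 0 (mem_ball_self hr)) ?_ ?_ (y := y) ?_ hy2 ?_ ht0.le ht1 ?_ hl hN ?_
  · intro i m k v hv
    have h1 : (fun x => c.ψ x (v : C.R)) =O[𝓝 0] fun x => ‖x‖ ^ (k + 1) :=
      isBigO_full P c hc v.2 hv
    exact isBigO_slice c (der_isBigO hch (Δ.θ i) h1)
  · intro m v x hx
    obtain ⟨K, hK⟩ := hgrad x hx
    refine ⟨|K|, ?_⟩
    filter_upwards [hK] with z hz
    refine (hz (v : C.R)).trans ?_
    have h1 : K * ∑ i, ‖c.ψ (sl z) (Δ.θ i (v : C.R))‖ ≤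
        |K| * ∑ i, ‖c.ψ (sl z) (Δ.θ i (v : C.R))‖ :=
      mul_le_mul_of_nonneg_right (le_abs_self K) (Finset.sum_nonneg fun _ _ => norm_nonneg _)
    refine h1.trans (mul_le_mul_of_nonneg_left ?_ (abs_nonneg K))
    exact le_add_of_nonneg_right (norm_nonneg _)
  · rw [tendsto_zero_iff_norm_tendsto_zero]
    refine squeeze_zero (fun j => norm_nonneg _) (fun j => ((hy1 j).trans_le (min_le_right _ _)).le)
      tendsto_one_div_add_atTop_nhds_zero_nat
  · intro j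
    rw [mem_ball_zero_iff]
    exact (hy1 j).trans_le (min_le_left _ _)
  · intro m hm k hk v hv j
    have h1 : (fun x => c.ψ x (v : C.R)) =O[𝓝 0] fun x => ‖x‖ ^ k := isBigO_full P c hc v.2 hv
    have h2 := mem_pow_of_isBigO P c hc h1
    refine hy3 j _ v v.2 ?_
    have hmR : (1 : ℝ) ≤ m := by exact_mod_cast hm
    rcases Nat.eq_zero_or_pos (m / q) with h0 | h0
    · have hk1 : k ≠ 0 := by
        rintro rfl
        have : 0 < t * m := by positivity
        rw [Nat.cast_zero] at hk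
        linarith
      have h3 : φ (v : C.R) = 0 := Ideal.pow_le_self hk1 h2
      have h4 : (v : C.R) ∈ C.A 0 := h0 ▸ v.2
      obtain ⟨a, ha⟩ := C.zero _ h4
      rw [← ha, AlgHom.commutes] at h3
      have h5 : a = 0 := h3
      rw [← ha, h5, map_zero]
      exact Q.zero_mem
    · refine hbase (m / q) h0 k (le_trans ?_ hk) v v.2 h2
      have h3 : ((q * (m / q) : ℕ) : ℝ) ≤ m := by exact_mod_cast Nat.mul_div_le m q
      push_cast at h3
      rw [mul_assoc]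
      exact mul_le_mul_of_nonneg_left h3 ht0.le
  · intro ε hε
    filter_upwards [hT ε hε] with m hm
    refine le_trans ?_ hm
    have h1 : ∑ k ∈ Finset.range m, Module.finrank ℂ (fil (ιs c (m / q)) (k + 1)) ≤
        ∑ k ∈ Finset.range m, Module.finrank ℂ (ordA φ (m / q) (k + 1)) := by
      refine Finset.sum_le_sum fun k _ => ?_
      have h2 : (fil (ιs c (m / q)) (k + 1)).map (C.A (m / q)).subtype ≤ ordA φ (m / q) (k + 1) := by
        rintro _ ⟨v, hv, rfl⟩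
        exact ⟨mem_pow_of_isBigO P c hc (isBigO_full P c hc v.2 hv), v.2⟩
      have hfin : FiniteDimensional ℂ (ordA φ (m / q) (k + 1)) :=
        Submodule.finiteDimensional_of_le inf_le_right
      calc Module.finrank ℂ (fil (ιs c (m / q)) (k + 1))
          = Module.finrank ℂ ((fil (ιs c (m / q)) (k + 1)).map (C.A (m / q)).subtype) :=
            LinearEquiv.finrank_eq
              (Submodule.equivMapOfInjective _ (Submodule.injective_subtype _) _)
        _ ≤ _ := Submodule.finrank_mono h2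
    exact_mod_cast h1

/-- **The generator from the sections.** -/
theorem gen_of_sections1 (hGE : GlobEnd) (hn : 1 ≤ n) (hφ : GCone.NV φ) (P : HParam C φ)
    (c : Chart φ (n + 1)) (hc : ∀ j, c.t j = P.X j - algebraMap ℂ C.R (φ (P.X j)))
    {t : ℝ} (ht : (n : ℝ) < t) {m : ℕ} (hm : 1 ≤ m) (S : Finset C.R)
    (hS : ∀ s ∈ S, s ∈ C.A m ∧ ∃ k : ℕ, t * m ≤ k ∧ s ∈ pI φ ^ k)
    (hcut : ∀ e, ∀ g ∈ C.A e, φ g = 0 → ∃ (N : ℕ) (h : C.R), φ h ≠ 0 ∧
      h * g ^ N ∈ Ideal.span (S : Set C.R)) : GCone.Gen 1 φ := by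
  have hn0 : (0 : ℝ) < n := by exact_mod_cast hn
  have ht0 : 0 < t := lt_trans hn0 ht
  have hm0 : (0 : ℝ) < m := by exact_mod_cast hm
  have hκ : 0 ≤ (n : ℝ) / (t * m) := by positivity
  -- a nonzero section
  have hne : ∃ s ∈ S, s ≠ 0 := by
    by_contra hcon
    push Not at hcon
    obtain ⟨N, h, hh, hmem⟩ := hcut _ _ (P.mem (Fin.succ ⟨0, hn⟩)) (P.zero ⟨0, hn⟩)
    have h0 : Ideal.span (S : Set C.R) ≤ ⊥ := by
      rw [Ideal.span_le]
      intro s hs
      exact hcon s hs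
    have h1 : h * P.X (Fin.succ ⟨0, hn⟩) ^ N = 0 := h0 hmem
    have h2 : h ≠ 0 := fun h => hh (by rw [h, map_zero])
    have h3 : P.X (Fin.succ ⟨0, hn⟩) = 0 :=
      eq_zero_of_pow_eq_zero ((mul_eq_zero.1 h1).resolve_left h2)
    set x : Fin (n + 1) → ℂ := Pi.single (Fin.succ ⟨0, hn⟩) ((c.ρ / 2 : ℝ) : ℂ) with hx
    have hxb : x ∈ ball (0 : Fin (n + 1) → ℂ) c.ρ := by
      rw [mem_ball_zero_iff, hx, Pi.norm_single, Complex.norm_real, Real.norm_of_nonneg
        (half_pos c.ρ_pos).le]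
      exact half_lt_self c.ρ_pos
    have h4 := ψ_X P c hc hxb (Fin.succ ⟨0, hn⟩)
    rw [h3, map_zero, map_zero, zero_add, hx, Pi.single_eq_same] at h4
    have h5 : (c.ρ / 2 : ℝ) = 0 := by exact_mod_cast h4.symm
    have := c.ρ_pos
    linarith
  refine hGE n C 1 φ hφ (oneW S (fun s hs => (hS s hs).1) hne hκ) ?_
    (not_intAt hn P c hc ht0 hm S hS hne hκ) ?_
  · rw [oneW_deg]
    have h1 : (n : ℝ) / (t * m) * m = n / t := by field_simp
    rw [h1, div_lt_iff₀ ht0]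
    push_cast
    linarith
  · have h1 : ∀ᶠ χ : C.Pt in 𝓝 φ, (∀ t : ℂ, t ≠ 0 → GCone.tact t φ ≠ χ) →
        IntAt (n + 1) χ (oneW S (fun s hs => (hS s hs).1) hne hκ).val := by
      filter_upwards [eventually_ne_or_orbit P c hc S hcut, eventually_ne P.ne] with χ h2 h3 h4
      rcases h2 with ⟨s, hs, hsne⟩ | ⟨t, ht, hto⟩
      · exact intAt_of_ne ⟨P.d 0, P.d_pos, P.X 0, P.mem 0, h3⟩ S _ hne hκ hs hsne
      · exact absurd hto (h4 t ht)
    obtain ⟨F, ε, hε, hF⟩ := mem_nhds_iff_finset.1 h1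
    exact ⟨F, ε, hε, hF⟩

open Module Vale.Agent.P271.Main Vale.Agent.P271.Drop Vale.Agent.P271.Deg Vale.Agent.P271.Uni in
/-- The equality case: `L ^ n = (n + 1) ^ n` and the orders of vanishing are extremal. -/
theorem gen_of_eq [∀ k, FiniteDimensional ℂ (C.A k)] (hG : GlobEnd) (hn : 1 ≤ n) (z : NVPt C)
    {m1 : ℕ} (hm1 : 1 ≤ m1)
    (hTS : TwoSided n ((n + 1) ^ n * m1 ^ n) (hilb (VA C m1) (⊥ : Ideal C.R)))
    (hos : ∀ δ : ℝ, 0 < δ → ∃ T₀ : ℕ, ∀ T ≥ T₀,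
      osum z m1 T ≤ (n + δ) * (m1 * T * finrank ℂ (VA C m1 T))) : C.Gen 1 z.1 := by
  have hm0 : (0 : ℝ) < m1 := by exact_mod_cast hm1
  have hn0 : (0 : ℝ) < n := by exact_mod_cast hn
  obtain ⟨P, c, hc⟩ := exists_param z.2
  obtain ⟨Δ⟩ := exists_ders z.2 P
  have hq : 0 < n + 1 := Nat.succ_pos n
  have hl : map (fun T : ℕ => (n + 1) * (m1 * T)) atTop ≤ atTop :=
    (tendsto_id.const_mul_atTop' (by omega)).const_mul_atTop' hq
  have hdiv : ∀ T : ℕ, (n + 1) * (m1 * T) / (n + 1) = m1 * T := fun T =>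
    Nat.mul_div_cancel_left _ hq
  have hN : Tendsto (fun m : ℕ => (finrank ℂ (C.A (m / (n + 1))) : ℝ) / (m : ℝ) ^ n)
      (map (fun T : ℕ => (n + 1) * (m1 * T)) atTop) (𝓝 (1 / (n.factorial : ℝ))) := by
    rw [tendsto_map'_iff]
    have h1 := (hTS.tendsto).div_const ((((n : ℝ) + 1) * m1) ^ n)
    refine (h1.congr' ?_).trans (le_of_eq ?_)
    · filter_upwards with T
      simp only [Function.comp_apply]
      rw [hilb_bot', hdiv]
      push_cast
      rw [div_div, ← mul_pow]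
      congr 2
      ring
    · congr 1
      push_cast
      rw [mul_pow]
      field_simp
  have hT : ∀ ε : ℝ, 0 < ε → ∀ᶠ m in map (fun T : ℕ => (n + 1) * (m1 * T)) atTop,
      ((∑ k ∈ Finset.range m, finrank ℂ (ordA z.1 (m / (n + 1)) (k + 1)) : ℕ) : ℝ) ≤
        ((n : ℝ) / (n + 1) + ε) * (m * finrank ℂ (C.A (m / (n + 1)))) := by
    intro ε hε
    rw [eventually_map]
    obtain ⟨T₀, hT₀⟩ := hos (ε * (n + 1)) (by positivity)
    filter_upwards [eventually_ge_atTop T₀] with T hT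
    have h1 := hT₀ T hT
    have h2 := sum_ordA_le_os z.1 m1 T ((n + 1) * (m1 * T))
    rw [hdiv]
    refine h2.trans (h1.trans (le_of_eq ?_))
    push_cast
    field_simp
  set t : ℝ := ((n : ℝ) + 1 / 2) / (n + 1) with ht
  have ht0 : 0 < t := by rw [ht]; positivity
  have ht1 : t < 1 := by
    rw [ht, div_lt_one (by positivity)]
    linarith
  have htq : t * ((n + 1 : ℕ) : ℝ) = n + 1 / 2 := by
    rw [ht]
    push_cast
    field_simp
  have ht2 : (0 : ℝ) < n + 1 / 2 := by positivity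
  obtain ⟨m, hm, S, hS, hcut⟩ := exists_finset (φ := z.1) ht2 fun e g hg hφg =>
    exists_mul_pow_mem ht2 fun Q hQ hQφ hQb =>
      haveI := hQ
      no_primeq hn P c hc (chainRule P c hc) Δ hq hl hN hT ht0 ht1 hQφ (by rw [htq]; exact hQb)
        hg hφg
  exact gen_of_sections1 hG hn z.2 P c hc (t := n + 1 / 2) (by linarith) hm S hS hcut

end Vale.Agent.N271X
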