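import Vale.Agent.P271.H507.K3WStat

/-!
# The weighted count when the subvarieties through the point have large degree
-/

set_option linter.all false

namespace Vale.Agent.N271X

open Module Finset Filter Topology
open Vale.Agent.P271 Vale.Agent.P271.H507
open Vale.Agent.P271.Filt Vale.Agent.P271.Filt.Wt Vale.Agent.P271.H43 Vale.Agent.P271.Sch
  Vale.Agent.P271.Inst Vale.Agent.P271.Zorn Vale.Agent.P271.H84 Vale.Agent.P271.Main
  Vale.Agent.P271.Chain Vale.Agent.P271.Deg Vale.Agent.P271.Ver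
open Vale.Agent.P271.Drop (hilb)

variable {n : ℕ} {C : GCone n}

/-- The count `k3w`, when all proper subvarieties of positive dimension `d` through the point
have degree at least `μ ^ d` (in the Veronese grading). -/
theorem k3wμ [∀ k, FiniteDimensional ℂ (C.A k)] (S : CSys C) (z : NVPt C) {m1 r1 r μ : ℕ}
    (hm : VerOK C.A m1) (hn : 1 ≤ n) (hK : K3Fin S z m1 r1) (hG : GrowV C m1 r) (hμ : 1 ≤ μ)
    (hdeg : ∀ P : Ideal C.R, HPrime z.1 P → P ≠ ⊥ → ∀ d D : ℕ, 1 ≤ d → 1 ≤ D →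
      TwoSided d D (hilb (VA C m1) P) → μ ^ d ≤ D) :
    ∀ ε : ℝ, 0 < ε → ε < 1 → ∀ x₀ : ℝ, 0 < x₀ → x₀ < 1 → ∀ θ₁ : ℝ, θ₁ < 1 → ∃ T₀ : ℕ,
    ∀ T ≥ T₀, ∀ θ : ℝ, 0 ≤ θ → θ ≤ θ₁ → ∀ R F P,
      Minim (Hz C z.1 m1 T) (S.a z m1 T) (kapT (m1 * T) x₀ θ (finrank ℂ (VA C m1 T))) R F →
      S.IsCen z m1 T F P → P ≠ pz z.1 →
      R * ((μ : ℝ) / m1) * (1 + θ * (Main.gam n x₀ - 1)) * (1 - ε) ≤ n + 1 := by
  classical
  intro ε hε hε1 x₀ hx0 hx1 θ₁ hθ₁
  set N : ℕ → ℕ := fun M => finrank ℂ (VA C m1 M) with hNdef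
  obtain ⟨v₀, hv₀, hN⟩ := tendsto_finrank hm z.2
  obtain ⟨r', hr', T₁, hW⟩ := H177.W.{0, 0} hn hv₀ hN (Grow.growOk_zero n N r) Grow.growOk_le
    (Grow.growProp hn hv₀ hN r) (m₁ := μ) (r₁ := r1) (a0 := 0) hμ hx0 hx1 hε hε1 hθ₁
  refine ⟨max T₁ 1, ?_⟩
  intro T hT θ hθ0 hθ R F P hmin hcen hP
  have hTa : T₁ ≤ T := (le_max_left _ _).trans hT
  have hTd : 1 ≤ T := (le_max_right _ _).trans hT
  have hprime := hcen.hprime
  obtain ⟨v, hsat, h0, hF, hval, rfl⟩ := hcen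
  rw [hmin.a_eq] at hsat
  -- the weights of `F`
  have hFw : ∀ x : VA C m1 T, x ≠ 0 → F.w x = (hval.rval.wt (VA C m1 T)).w x := by
    intro x hx
    rw [hF x hx]
    exact (wt_mk hval x hx).symm
  -- the centre is not zero
  have hPbot : hval.rval.P ≠ ⊥ := by
    obtain ⟨x, hx, hpos⟩ := hmin.exists_pos
    intro hbot
    have h1 : (x : C.R) ∈ hval.rval.P := by
      intro _
      rw [hFw x hx] at hpos
      exact hpos
    rw [hbot, Submodule.mem_bot] at h1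
    exact hx (Subtype.ext h1)
  obtain ⟨d, hd1, hdn, hdlt, ⟨D, hD1, hTS⟩, -⟩ := H58.pd_low hm z.2 hval.rval.P hprime hP
  have hd := hdlt hPbot
  have hlow := H58.low_mono hTS (hdeg _ hprime hPbot d D hd1 hD1 hTS)
  obtain ⟨b, e, α₁, hb, he, hα, hcount⟩ :=
    hK T v R hsat h0 hval hP d hd1 hdn ⟨D, hD1, hTS⟩
  obtain ⟨hNpos, hW⟩ := hW T hTa
  have hMpos : 1 ≤ msz x₀ (N T) := msz_pos hx0 hNpos
  have hMle : msz x₀ (N T) ≤ finrank ℂ (VA C m1 T) := msz_le hx1.le _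
  set Fv : ∀ M, Wt ℂ (VA C m1 M) := fun M => hval.rval.wt (VA C m1 M) with hFv
  obtain ⟨t, -, ht1, ht2, htl⟩ := exists_two_level_basis (Fv T) hMpos hMle
  have hwb : ∀ i, (Fv T).w (b i) = hval.ext (b i) := fun i => rfl
  -- the count
  have key := hW ℂ C.R (VA C m1) (fun M => inferInstance) mul_mem_VA Fv
    (fun M M' g s hg hs => by
      show hval.ext ((g : C.R) * s) = hval.ext s + hval.ext g
      rw [hval.rval.mul _ _ (fun h => hg (Subtype.ext h)) (fun h => hs (Subtype.ext h)), add_comm])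
    (fun M x hx => hval.rval.nonneg _ fun h => hx (Subtype.ext h))
    (fun M => rfl)
    (fun a _ => by
      obtain ⟨y, hy⟩ := exists_base hm z.2 a
      have hy0 : y ≠ 0 := by
        rintro rfl
        exact hy (by simp)
      refine ⟨y, hy0, ?_⟩
      show (hval.rval.wt (VA C m1 a)).w y = 0
      rw [wt_mk hval y hy0]
      exact h0 _ hy)
    (fun t => hG _ hval.rval t) d hd1 hd (fun s => hilb (VA C m1) hval.rval.P s) (hlow r')
    (fun a ha => hilb_eq_finrank fun x hx hxP => by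
      by_contra hx0
      have h1 := ha ⟨x, hx⟩ (fun h => hx0 (congrArg Subtype.val h))
      have h2 : 0 < hval.ext x := hxP hx0
      have h3 : hval.ext x = 0 := h1
      linarith)
    (∑ i, e i) (fun t => ∑ i, if hval.ext (b i) < t then e i else 0)
    (fun s k hsk => by
      obtain ⟨t', ht'⟩ := exists_large (m1 := m1) hval.rval T
      have h1 := hcount t' s k hsk
      have e1 : ∀ M ≤ T, (finrank ℂ (VA C m1 M) : ℝ) -
          finrank ℂ ((hval.rval.wt (VA C m1 M)).sub t') = N M := by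
        intro M hM
        rw [(ht' M hM).2, Nat.cast_zero, sub_zero]
      rw [e1 T le_rfl] at h1
      have e2 : ∑ j ∈ range k, ((finrank ℂ (VA C m1 (T - (j + 1) * (s + r1))) : ℝ) -
            finrank ℂ ((hval.rval.wt (VA C m1 (T - (j + 1) * (s + r1)))).sub t')) =
          ∑ j ∈ range k, (N (T - (j + 1) * (s + r1)) : ℝ) :=
        Finset.sum_congr rfl fun j _ => e1 _ (Nat.sub_le _ _)
      rw [e2] at h1
      refine h1.trans (le_of_eq ?_)
      refine Finset.sum_congr rfl fun i _ => ?_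
      exact if_pos ((ht' T le_rfl).1 (b i) (b.ne_zero i)))
    (fun t s k hsk => hcount t s k hsk)
    (fun t => Finset.sum_nonneg fun i _ => by split_ifs <;> simp [he i])
    t ht1 ht2 θ hθ0 hθ
  -- the choice of `α`
  obtain ⟨α0, hα0, hα0'⟩ := exists_alpha_fin (fun i => (Fv T).w (b i)) e
  set α := max α₁ α0 with hαdef
  obtain ⟨hdom, hup⟩ := hα α (le_max_left _ _)
  have hmT : (0 : ℝ) < (m1 : ℝ) * T := by
    have h1 : (0 : ℝ) < m1 := by exact_mod_cast hm.pos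
    have h2 : (0 : ℝ) < T := by exact_mod_cast hTd
    positivity
  have hM0 : (0 : ℝ) < (msz x₀ (N T) : ℝ) := by exact_mod_cast hMpos
  have hTL := htl b hb e he α ((1 - θ) / (m1 * T * N T)) (θ / (m1 * T * msz x₀ (N T)))
    (div_nonneg hθ0 (mul_pos hmT hM0).le) (hα0' α (le_max_right _ _))
  have hS : S.a z m1 T F = R := hmin.a_eq
  have hSF : H43.S (kapT (m1 * T) x₀ θ (finrank ℂ (VA C m1 T))) (Fv T) = 1 := by
    rw [← hmin.S_eq]
    exact S_congr hmin.mono (fun i => (hmin.κpos i).le) fun x hx => (hFw x hx).symm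
  have hm1R : (0 : ℝ) < m1 := by exact_mod_cast hm.pos
  have hμR : (0 : ℝ) < μ := by exact_mod_cast hμ
  have hTR : (0 : ℝ) < T := by exact_mod_cast hTd
  have hNR : (0 : ℝ) < N T := by exact_mod_cast hNpos
  have key2 := mul_le_mul_of_nonneg_left key (div_pos hμR hm1R).le
  have hM0' : (0 : ℝ) < (⌈x₀ * N T⌉₊ : ℕ) := hM0
  have e3 : ∀ A B : ℝ, (μ : ℝ) / m1 * ((1 - θ) / (μ * T * N T) * A +
      θ / (μ * T * (⌈x₀ * N T⌉₊ : ℕ)) * B) =
      (1 - θ) / (m1 * T * N T) * A + θ / (m1 * T * (⌈x₀ * N T⌉₊ : ℕ)) * B := by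
    intro A B
    field_simp
  rw [e3] at key2
  set Ev : ℝ := (μ : ℝ) / m1 * ((d : ℝ) / (n + 1) * (1 - ε) * (1 + θ * (H177.gam n x₀ - 1)))
    with hEv
  have hsumeq : ∑ i with (Fv T).w (b i) < t, e i = ∑ i, if hval.ext (b i) < t then e i else 0 := by
    rw [Finset.sum_filter]
    rfl
  rw [hsumeq] at hTL
  have hEG : α + Ev ≤ H43.S (kapT (m1 * T) x₀ θ (finrank ℂ (VA C m1 T)))
      (ofBasis b fun i => α * hval.ext (b i) + e i) := by
    have h1 : Ev ≤ H43.S (kapT (m1 * T) x₀ θ (finrank ℂ (VA C m1 T)))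
        (ofBasis b fun i => α * hval.ext (b i) + e i) - α * 1 := by
      rw [← hSF]
      exact key2.trans hTL
    linarith
  have hfin := hmin.K3 hdom hup hEG
  have hdR : (0 : ℝ) < d := by exact_mod_cast hd1
  have hnR : (0 : ℝ) < (n : ℝ) + 1 := by positivity
  have h1 : R * Ev = (d / (n + 1)) *
      (R * ((μ : ℝ) / m1) * (1 + θ * (H177.gam n x₀ - 1)) * (1 - ε)) := by
    rw [hEv]; ring
  rw [h1] at hfin
  have h2 : R * ((μ : ℝ) / m1) * (1 + θ * (H177.gam n x₀ - 1)) * (1 - ε) ≤ n + 1 := by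
    have h3 : (d : ℝ) / (n + 1) *
        (R * ((μ : ℝ) / m1) * (1 + θ * (H177.gam n x₀ - 1)) * (1 - ε)) ≤
        (d : ℝ) / (n + 1) * (n + 1) := by
      refine hfin.trans (le_of_eq ?_)
      field_simp
    exact le_of_mul_le_mul_left h3 (by positivity)
  exact h2

end Vale.Agent.N271X
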