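import Vale.Agent.P271.Main.FreeDefs

/-!
# Numerical lemmas for the numerical criterion
-/

set_option linter.all false

namespace Vale.Agent.N271X

open Filter Topology Vale.Agent.P271.Main

theorem exists_small {F G : ℝ → ℝ} {u v : ℝ} (hF : Continuous F) (hG : Continuous G)
    (h1 : u < F 0) (h2 : v < G 0) {c : ℝ} (hc : 0 < c) :
    ∃ η : ℝ, 0 < η ∧ η < c ∧ u < F η ∧ v < G η := by
  have e1 : ∀ᶠ η : ℝ in 𝓝[>] 0, u < F η :=
    ((hF.tendsto 0).mono_left nhdsWithin_le_nhds).eventually (lt_mem_nhds h1)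
  have e2 : ∀ᶠ η : ℝ in 𝓝[>] 0, v < G η :=
    ((hG.tendsto 0).mono_left nhdsWithin_le_nhds).eventually (lt_mem_nhds h2)
  have e3 : ∀ᶠ η : ℝ in 𝓝[>] 0, η ∈ Set.Ioo 0 c := Ioo_mem_nhdsGT hc
  obtain ⟨η, h3, h4, h5⟩ := (e3.and (e1.and e2)).exists
  exact ⟨η, h3.1, h3.2, h4, h5⟩

theorem exists_r_eps {u v p A t w : ℝ} (h1 : u < p * A) (h2 : v < t * w) :
    ∃ r ε : ℝ, 0 < r ∧ r < 1 ∧ 0 < ε ∧ ε < 1 ∧ u < p * (r * A) ∧ v < r * t * w * (1 - ε) := by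
  obtain ⟨η, h3, h4, h5, h6⟩ := exists_small (F := fun η => p * ((1 - η) * A))
    (G := fun η => (1 - η) * t * w * (1 - η)) (u := u) (v := v) (by fun_prop) (by fun_prop)
    (by simpa using h1) (by simpa using h2) one_pos
  exact ⟨1 - η, η, by linarith, by linarith, h3, h4, h5, h6⟩

theorem alt_false {G : Prop} {n mN r θ₀ ε t g A os : ℝ} (hn : 0 ≤ n) (hmN : 0 < mN) (hr : 0 < r)
    (hθ0 : 0 ≤ θ₀) (hθ1 : θ₀ < 1) (hε : ε < 1) (ht : 0 < t) (hg : 0 < g) (hA : A * mN ≤ os)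
    (h3 : n < (1 - θ₀) * (r * A)) (h4 : n + 1 < r * t * (1 + θ₀ * g) * (1 - ε))
    (H : n * mN < r * os → G ∨ ∃ θ : ℝ, 0 ≤ θ ∧ (1 - θ) * (r * os) ≤ n * mN ∧
      r * t * (1 + θ * g) * (1 - ε) ≤ n + 1) : G := by
  have hlt : n * mN < (1 - θ₀) * (r * os) := by
    calc n * mN < (1 - θ₀) * (r * A) * mN := mul_lt_mul_of_pos_right h3 hmN
      _ = (1 - θ₀) * (r * (A * mN)) := by ring
      _ ≤ _ := mul_le_mul_of_nonneg_left (mul_le_mul_of_nonneg_left hA hr.le) (by linarith)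
  have hos0 : 0 < r * os :=
    pos_of_mul_pos_right (lt_of_le_of_lt (mul_nonneg hn hmN.le) hlt) (by linarith)
  have hlt' : n * mN < r * os := by
    have := mul_nonneg hθ0 hos0.le
    linarith
  rcases H hlt' with h | ⟨θ, hθ, h5, h6⟩
  · exact h
  exfalso
  have hθθ : θ₀ ≤ θ := by
    by_contra hc
    push Not at hc
    have : (1 - θ₀) * (r * os) ≤ (1 - θ) * (r * os) :=
      mul_le_mul_of_nonneg_right (by linarith) hos0.le
    linarith
  have h7 : 1 + θ₀ * g ≤ 1 + θ * g := by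
    linarith [mul_le_mul_of_nonneg_right hθθ hg.le]
  have h9 : r * t * (1 + θ₀ * g) * (1 - ε) ≤ r * t * (1 + θ * g) * (1 - ε) :=
    mul_le_mul_of_nonneg_right (mul_le_mul_of_nonneg_left h7 (by positivity)) (by linarith)
  linarith

theorem le_root {n : ℕ} (hn : 1 ≤ n) {a l : ℝ} (ha : 0 ≤ a) (h : a ^ n ≤ l) :
    a ≤ l ^ ((1 : ℝ) / n) := by
  have h1 := Real.rpow_le_rpow (pow_nonneg ha n) h (show (0 : ℝ) ≤ 1 / n by positivity)
  rwa [one_div, Real.pow_rpow_inv_natCast ha (by omega), ← one_div] at h1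

theorem exists_gap1 {n ell : ℕ} (hn : 1 ≤ n) {a : ℝ} (ha : (n : ℝ) + 1 ≤ a) (h : a ^ n ≤ ell)
    (hE : ell ≠ (n + 1) ^ n) :
    ∃ δ : ℝ, 0 < δ ∧ n + δ ≤ (n : ℝ) / (n + 1) * (ell : ℝ) ^ ((1 : ℝ) / n) - δ := by
  have hn0 : (0 : ℝ) < n := by exact_mod_cast hn
  have h1 : ((n : ℝ) + 1) ^ n ≤ ell := (pow_le_pow_left₀ (by positivity) ha n).trans h
  have h2 : ((n : ℝ) + 1) ^ n < ell := by
    refine lt_of_le_of_ne h1 fun h3 => hE ?_
    exact_mod_cast h3.symm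
  have h3 := Real.rpow_lt_rpow (by positivity) h2 (show (0 : ℝ) < 1 / n by positivity)
  rw [one_div, Real.pow_rpow_inv_natCast (by positivity) (by omega), ← one_div] at h3
  have h4 : (n : ℝ) < n / (n + 1) * (ell : ℝ) ^ ((1 : ℝ) / n) := by
    calc (n : ℝ) = n / (n + 1) * (n + 1) := by field_simp
      _ < _ := mul_lt_mul_of_pos_left h3 (by positivity)
  exact ⟨(n / (n + 1) * (ell : ℝ) ^ ((1 : ℝ) / n) - n) / 2, by linarith, by linarith⟩

theorem exists_gam {n : ℕ} {γ x₁ : ℝ} (hγ : γ < 1 + 1 / (n : ℝ)) (hx : 0 < x₁) :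
    ∃ x₀ : ℝ, 0 < x₀ ∧ x₀ ≤ x₁ ∧ γ < gam n x₀ := by
  have h1 : HasDerivAt (fun x : ℝ => 1 - x) (-1) 0 := by
    simpa using (hasDerivAt_id (0 : ℝ)).const_sub 1
  have h2 := (h1.rpow_const (p := 1 + 1 / (n : ℝ)) (Or.inl (by norm_num))).const_sub 1
  have h3 := (hasDerivAt_iff_tendsto_slope_zero.1 h2).mono_left (nhdsGT_le_nhdsNE 0)
  have h4 : γ < -(-1 * (1 + 1 / (n : ℝ)) * (1 - 0 : ℝ) ^ (1 + 1 / (n : ℝ) - 1)) := by
    rw [sub_zero, Real.one_rpow]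
    linarith
  have e3 : ∀ᶠ η : ℝ in 𝓝[>] 0, η ∈ Set.Ioo 0 x₁ := Ioo_mem_nhdsGT hx
  obtain ⟨x₀, h5, h6⟩ := (e3.and (h3.eventually (lt_mem_nhds h4))).exists
  refine ⟨x₀, h5.1, h5.2.le, h6.trans_le (le_of_eq ?_)⟩
  unfold gam
  simp only [zero_add, sub_zero, Real.one_rpow, sub_self, smul_eq_mul]
  ring

theorem exists_trade {n : ℕ} (hn : 1 ≤ n) {a b : ℝ} (ha : (n : ℝ) + 1 ≤ a) (hb : 0 < b)
    (hb1 : b < n + 1) (hab : n / b + 1 / a < 1) :
    ∃ θ₀ t₀ γ ε : ℝ, 0 ≤ θ₀ ∧ θ₀ < 1 ∧ 0 < t₀ ∧ t₀ < b ∧ γ < 1 + 1 / (n : ℝ) ∧ 0 < ε ∧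
      n < (1 - θ₀) * (n / (n + 1) * a - ε) ∧ (n : ℝ) + 1 < t₀ * (1 + θ₀ * (γ - 1)) := by
  have hn0 : (0 : ℝ) < n := by exact_mod_cast hn
  have ha0 : 0 < a := by linarith
  have h1 : (n : ℝ) / (n + 1) < n / b := div_lt_div_of_pos_left hn0 hb hb1
  have h2 : 1 / a < 1 / ((n : ℝ) + 1) := by
    have : (n : ℝ) / (n + 1) = 1 - 1 / (n + 1) := by field_simp; ring
    linarith
  have h3 : (n : ℝ) + 1 < a := by
    rwa [one_div_lt_one_div ha0 (by positivity)] at h2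
  set θ : ℝ := 1 - (n + 1) / a with hθ
  have hq : ((n : ℝ) + 1) / a < 1 := by rwa [div_lt_one ha0]
  have hq0 : 0 < ((n : ℝ) + 1) / a := by positivity
  have h4 : (n : ℝ) + 1 < (b - 0) * (1 + (θ - 0) * (1 + 1 / (n : ℝ) - 0 - 1)) := by
    have e : (b - 0) * (1 + (θ - 0) * (1 + 1 / (n : ℝ) - 0 - 1)) =
        (n + 1) * (b / n * (1 - 1 / a)) := by
      rw [hθ]
      field_simp
      ring
    rw [e]
    have h5 : 1 < b / n * (1 - 1 / a) := by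
      calc (1 : ℝ) = b / n * (n / b) := by field_simp
        _ < _ := mul_lt_mul_of_pos_left (by linarith) (by positivity)
    nlinarith
  obtain ⟨η, h5, h6, h7, -⟩ := exists_small
    (F := fun η => (b - η) * (1 + (θ - η) * (1 + 1 / (n : ℝ) - η - 1))) (G := fun _ => 1)
    (u := n + 1) (v := 0) (by fun_prop) (by fun_prop) h4 one_pos
    (c := min b θ) (lt_min hb (by linarith))
  have h8 := h6.trans_le (min_le_left _ _)
  have h9 := h6.trans_le (min_le_right _ _)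
  have hc : 0 < (n : ℝ) / (n + 1) * a := by positivity
  refine ⟨θ - η, b - η, 1 + 1 / (n : ℝ) - η, η * (n / (n + 1) * a) / 2, by linarith, by linarith,
    by linarith, by linarith, by linarith, by positivity, ?_, h7⟩
  have e1 : (1 - (θ - η)) * (n / (n + 1) * a) = n + η * (n / (n + 1) * a) := by
    rw [hθ]
    field_simp
    ring
  have e2 : (1 - (θ - η)) * (η * (n / (n + 1) * a) / 2) ≤ η * (n / (n + 1) * a) / 2 :=
    mul_le_of_le_one_left (by positivity) (by linarith)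
  have e3 : 0 < η * (n / (n + 1) * a) := by positivity
  rw [mul_sub, e1]
  linarith

end Vale.Agent.N271X
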