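import Vale.Agent.P271.Main.Hub
import Vale.Agent.N271X.K3W
import Vale.Agent.N271X.Eq
import Vale.Agent.N271X.Conc
import Vale.Agent.N271X.Num

/-!
# The numerical criterion on graded cones
-/

set_option linter.all false

namespace Vale.Agent.N271X

open Vale.Agent.P271 Vale.Agent.P271.Main
open Module Filt Filt.Wt Chain Sch Inst Zorn Exp H43 H84 Drop Deg Ver Filter Topology

section Alt

variable {n : ℕ} {C : GCone n} {z : C.Pt} {m1 ell : ℕ} [∀ k, FiniteDimensional ℂ (C.A k)]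

/-- The alternative at a level. -/
theorem alt1 (B : FreeBlocks C z m1 ell) {x₀ t : ℝ} (hx0 : 0 < x₀) (hx1 : x₀ < 1)
    (hconc : ∃ T₀ : ℕ, ∀ T ≥ T₀, ∀ G : Wt ℂ (VA C m1 T), Dom (Hz C z m1 T) G →
      ((n : ℝ) + 3) * S (kap1 (m1 * T) x₀ (finrank ℂ (VA C m1 T))) G ≤ B.a T G)
    {ε : ℝ} (hk3 : ∀ θ₁ : ℝ, θ₁ < 1 → ∃ T₀ : ℕ,
      ∀ T ≥ T₀, ∀ θ : ℝ, 0 ≤ θ → θ ≤ θ₁ → ∀ R F P,
        Minim (Hz C z m1 T) (B.a T) (kapT (m1 * T) x₀ θ (finrank ℂ (VA C m1 T))) R F →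
        B.IsCen T F P → P ≠ pz z → R * t * (1 + θ * (gam n x₀ - 1)) * (1 - ε) ≤ n + 1)
    {r : ℝ} (hr0 : 0 < r) (hr1 : r < 1) :
    ∃ T₀ : ℕ, ∀ T ≥ T₀, n * ((m1 : ℝ) * T * finrank ℂ (VA C m1 T)) < r * B.os T →
      C.Gen 1 z ∨ ∃ θ : ℝ, 0 ≤ θ ∧
        (1 - θ) * (r * B.os T) ≤ n * ((m1 : ℝ) * T * finrank ℂ (VA C m1 T)) ∧
        r * t * (1 + θ * (gam n x₀ - 1)) * (1 - ε) ≤ n + 1 := by
  obtain ⟨T₁, hconc⟩ := hconc
  obtain ⟨T₂, hhz⟩ := B.hz_ne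
  obtain ⟨T₃, hslope⟩ := B.slope
  obtain ⟨c, hc, T₄, hlow⟩ := B.low
  obtain ⟨T₅, huni⟩ := B.uni
  obtain ⟨T₆, hcen⟩ := B.cen
  obtain ⟨T₇, hfin⟩ := B.fin
  have hrr : r < (n : ℝ) + 3 := by
    have : (0 : ℝ) ≤ n := Nat.cast_nonneg n
    linarith
  have hgap : 0 < 1 / r - 1 / ((n : ℝ) + 3) := by
    rw [sub_pos]; exact one_div_lt_one_div_of_lt hr0 hrr
  have hθ₁ : 1 - (1 / r - 1 / ((n : ℝ) + 3)) / c < 1 := by
    have := div_pos hgap hc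
    linarith
  obtain ⟨T₈, hk3⟩ := hk3 _ hθ₁
  refine ⟨max 1 (max T₁ (max T₂ (max T₃ (max T₄ (max T₅ (max T₆ (max T₇ T₈))))))),
    fun T hT hos => ?_⟩
  simp only [ge_iff_le, max_le_iff] at hT
  obtain ⟨hT0, hT1, hT2, hT3, hT4, hT5, hT6, hT7, hT8⟩ := hT
  have hm : (0 : ℝ) < (m1 : ℝ) * T := by
    have h1 : (0 : ℝ) < m1 := by exact_mod_cast B.m1_pos
    have h2 : (0 : ℝ) < T := by exact_mod_cast hT0
    positivity
  have hN := finrank_pos_of_hz (hhz T hT2)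
  have hN' : (0 : ℝ) < finrank ℂ (VA C m1 T) := by exact_mod_cast hN
  set N := finrank ℂ (VA C m1 T) with hNdef
  obtain ⟨c0, hsl⟩ := hslope T hT3
  obtain ⟨E, hED, hEa, hET⟩ := huni T hT5
  have hmN : 0 < (m1 : ℝ) * T * N := by positivity
  have hosr : 0 < r * B.os T := lt_of_le_of_lt (by positivity) hos
  have hosp : 0 < B.os T := pos_of_mul_pos_right hosr hr0.le
  have hSE : S (kap0 (m1 * T) x₀ N) E = B.os T / (m1 * T * N) := by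
    rw [S_kap0, hET]; ring
  have hSE0 : 0 < S (kap0 (m1 * T) x₀ N) E := by rw [hSE]; positivity
  obtain ⟨θ, hθ0, hθlt, hθC, hθR, F, hF⟩ := hsl.exists_theta (κ0 := kap0 (m1 * T) x₀ N)
    (κ1 := kap1 (m1 * T) x₀ N) kap0_mono (kap1_mono hm) (kap0_pos hm) (kap1_nonneg hm)
    (hhz T hT2) hc hr0 hrr
    (fun G hG => S_kap0_le hm hN fun x hx => hlow T hT4 G hG x hx)
    (fun G hG => hconc T hT1 G hG)
    ⟨E, hED, hSE0, by
      refine hEa.trans ?_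
      rw [hSE, ← mul_div_assoc, le_div_iff₀ hmN]
      exact hos.le⟩
  rw [path_kap] at hF
  obtain ⟨P, hP⟩ := hcen T hT6 _ _ _ hF
  by_cases hPz : P = pz z
  · left
    subst hPz
    refine hfin T hT7 _ _ _ hF hP 1 ?_
    rw [sum_kapT hm hx0 hx1.le hN, mul_one_div, div_mul_cancel₀ _ hm.ne', Nat.cast_one]
    exact hr1
  · right
    have hθ₁' : θ ≤ 1 - (1 / r - 1 / ((n : ℝ) + 3)) / c := by
      have : (1 / r - 1 / ((n : ℝ) + 3)) / c ≤ 1 - θ := by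
        rw [div_le_iff₀ hc]; exact hθC
      linarith
    refine ⟨θ, hθ0, ?_, hk3 T hT8 θ hθ0 hθ₁' r F P hF hP hPz⟩
    have h1 := hθR (n / S (kap0 (m1 * T) x₀ N) E) E hED hSE0 (by
      rw [div_mul_cancel₀ _ hSE0.ne']; exact hEa)
    rw [le_div_iff₀ hSE0, hSE, ← mul_div_assoc, div_le_iff₀ hmN] at h1
    linarith

end Alt

variable {n : ℕ} {C : GCone n}

/-- All homogeneous primes `P ≠ 0` through the point, of positive dimension `d`, have degree at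
least `b ^ d`. -/
def LowDeg (C : GCone n) (φ : C.Pt) (b : ℝ) : Prop :=
  ∀ P : Ideal C.R, HPrime φ P → P ≠ ⊥ → ∀ d ℓ : ℕ, 1 ≤ d →
    (∃ m D : ℕ, VerOK C.A m ∧ 1 ≤ D ∧ TwoSided d D (fun t => hilb C.A P (m * t))) →
    Tendsto (fun M : ℕ => (hilb C.A P M : ℝ) / (M : ℝ) ^ d) atTop (𝓝 ((ℓ : ℝ) / d.factorial)) →
      b ^ d ≤ ℓ

/-- The degree of the cone is at least `a ^ n`. -/
def TopDeg (C : GCone n) (a : ℝ) : Prop :=
  ∀ ℓ : ℕ, Tendsto (fun M : ℕ => (hilb C.A (⊥ : Ideal C.R) M : ℝ) / (M : ℝ) ^ n) atTop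
    (𝓝 ((ℓ : ℝ) / n.factorial)) → a ^ n ≤ ℓ

theorem gen_core [∀ k, FiniteDimensional ℂ (C.A k)] (hn : 1 ≤ n) (z : NVPt C) {m1 : ℕ}
    (hv : VerOK C.A m1) {b θ₀ A : ℝ} {μ : ℕ} (hμ1 : 1 ≤ μ) (hμ : (μ : ℝ) ≤ b * m1)
    (hlow : LowDeg C z.1 b)
    (hA : ∀ T₀ : ℕ, ∃ T ≥ T₀, A * ((m1 : ℝ) * T * finrank ℂ (VA C m1 T)) ≤ osum z m1 T)
    (hθ₀ : 0 ≤ θ₀) (hθ₁ : θ₀ < 1) (h1 : n < (1 - θ₀) * A)
    (h2 : ∀ x₁ : ℝ, 0 < x₁ → x₁ < 1 → ∃ x₀ : ℝ, 0 < x₀ ∧ x₀ ≤ x₁ ∧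
      (n : ℝ) + 1 < (μ : ℝ) / m1 * (1 + θ₀ * (gam n x₀ - 1))) : C.Gen 1 z.1 := by
  obtain ⟨d, ell, hell, hTS⟩ := H58.pd' hv z.2 (H58.hprime_bot (z := z.1))
  have hd : d = n := H58.pd_bot hv z.2 (Nat.mul_pos hell (pow_pos hv.pos _)) hTS
  subst hd
  have hR := rest_of hn z hv fun _ _ hTS => Uni.eqStat H741.globEnd hn z hv.pos hTS
  let B := freeBlocks hn (csys C) z hv hell
    (H244.endStat H741.globEnd hn (csys C) z ((csys C).P_ES z))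
    hR.conc hR.uni (hR.os ell hell hTS) (hR.eq ell hell hTS) hR.k3w
  obtain ⟨x₁, hx₁0, hx₁1, hconc⟩ := conc_small (csys C) z ((csys C).P_ES z) hn hv ((d : ℝ) + 3)
    (by positivity)
  obtain ⟨x₀, hx0, hx01, h2⟩ := h2 x₁ hx₁0 hx₁1
  have hx1 : x₀ < 1 := hx01.trans_lt hx₁1
  have hg : 0 < gam d x₀ - 1 := sub_pos.2 (one_lt_gam hn hx0 hx1)
  obtain ⟨r, ε, hr0, hr1, hε0, hε1, h3, h4⟩ := exists_r_eps h1 h2
  obtain ⟨r', hr'⟩ := H507.exists_growV hn z hv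
  obtain ⟨r1, hr1'⟩ := H507.exists_k3Fin H987.globGen hn (csys C) z hv.pos
  have hm0 : (0 : ℝ) < m1 := by exact_mod_cast hv.pos
  have hdeg : ∀ P : Ideal C.R, HPrime z.1 P → P ≠ ⊥ → ∀ e D : ℕ, 1 ≤ e → 1 ≤ D →
      TwoSided e D (hilb (VA C m1) P) → μ ^ e ≤ D := by
    intro P hP hP0 e D he hD hTS'
    have := C.finiteType
    have := hP.prime
    obtain ⟨ℓ, hℓ, hDℓ, hlim⟩ := Hilb.veronese_degree (P := P) C.A C.free C.zero
      (H58.rel' z.2 hP.le) hv.pos hD hTS'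
    have h5 := hlow P hP hP0 e ℓ he ⟨m1, D, hv, hD, hTS'⟩ hlim
    have h6 : ((μ ^ e : ℕ) : ℝ) ≤ ((ℓ * m1 ^ e : ℕ) : ℝ) := by
      push_cast
      calc (μ : ℝ) ^ e ≤ (b * m1) ^ e := pow_le_pow_left₀ (Nat.cast_nonneg _) hμ e
        _ = b ^ e * (m1 : ℝ) ^ e := mul_pow _ _ _
        _ ≤ _ := mul_le_mul_of_nonneg_right h5 (by positivity)
    rw [hDℓ]
    exact_mod_cast h6
  obtain ⟨T₁, hT₁⟩ := alt1 B (t := (μ : ℝ) / m1) hx0 hx1 (hconc x₀ hx0 hx01) (ε := ε)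
    (fun θ₁ hθ₁ => k3wμ (csys C) z hv hn hr1' hr' hμ1 hdeg ε hε0 hε1 x₀ hx0 hx1 θ₁ hθ₁) hr0 hr1
  obtain ⟨T₂, hhz⟩ := B.hz_ne
  obtain ⟨T, hT, hAT⟩ := hA (max 1 (max T₁ T₂))
  simp only [ge_iff_le, max_le_iff] at hT
  have hmN : (0 : ℝ) < (m1 : ℝ) * T * finrank ℂ (VA C m1 T) := by
    have h5 : (0 : ℝ) < T := by exact_mod_cast hT.1
    have h6 : (0 : ℝ) < finrank ℂ (VA C m1 T) := by
      exact_mod_cast finrank_pos_of_hz (hhz T hT.2.2)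
    positivity
  have hμ0 : (0 : ℝ) < (μ : ℝ) / m1 := by
    have : (0 : ℝ) < μ := by exact_mod_cast hμ1
    positivity
  exact (alt_false (Nat.cast_nonneg d) hmN hr0 hθ₀ hθ₁ hε1 hμ0 hg hAT h3 h4 (hT₁ T hT.2.1))

/-- **The numerical criterion on graded cones.** -/
theorem hub_num (hn : 1 ≤ n) (C : GCone n) (φ : C.Pt) (hφ : GCone.NV φ) {a b : ℝ}
    (ha : (n : ℝ) + 1 ≤ a) (hb : 0 < b) (hab : (n : ℝ) + 1 ≤ b ∨ n / b + 1 / a < 1)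
    (htop : TopDeg C a) (hlow : LowDeg C φ b) : C.Gen 1 φ := by
  obtain ⟨m₁, hm₁, hver⟩ := exists_verOK_cone C hφ
  have hfin : ∀ k, FiniteDimensional ℂ (C.A k) := (hver m₁ dvd_rfl hm₁).fin
  have hn0 : (0 : ℝ) < n := by exact_mod_cast hn
  let z : NVPt C := ⟨φ, hφ⟩
  have data : ∀ m1, VerOK C.A m1 → ∃ ell : ℕ, a ^ n ≤ ell ∧
      TwoSided n (ell * m1 ^ n) (hilb (VA C m1) (⊥ : Ideal C.R)) ∧ OsStat z m1 ell := by
    intro m1 hv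
    obtain ⟨d, ell, hell, hTS⟩ := H58.pd' hv hφ (H58.hprime_bot (z := φ))
    have hd : d = n := H58.pd_bot hv hφ (Nat.mul_pos hell (pow_pos hv.pos _)) hTS
    subst hd
    exact ⟨ell, htop ell (tendsto_of_twoSided z hv.pos hell hTS), hTS,
      osStat hn z hv.pos hell hTS⟩
  rcases le_or_gt ((n : ℝ) + 1) b with hb1 | hb1
  · have hv := hver m₁ dvd_rfl hm₁
    have hm0 : (0 : ℝ) < m₁ := by exact_mod_cast hm₁
    obtain ⟨ell, hell, hTS, hos⟩ := data m₁ hv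
    have hgap : C.Gen 1 φ ∨ ∃ δ : ℝ, 0 < δ ∧ ∀ T₀ : ℕ, ∃ T ≥ T₀,
        (n + δ) * ((m₁ : ℝ) * T * finrank ℂ (VA C m₁ T)) ≤ osum z m₁ T := by
      by_cases hE : ell = (n + 1) ^ n
      · by_cases hδ : ∀ δ : ℝ, 0 < δ → ∃ T₀ : ℕ, ∀ T ≥ T₀,
            osum z m₁ T ≤ (n + δ) * (m₁ * T * finrank ℂ (VA C m₁ T))
        · exact Or.inl (gen_of_eq H741.globEnd hn z hv.pos (hE ▸ hTS) hδ)
        · push Not at hδ
          obtain ⟨δ, hδ, h⟩ := hδ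
          exact Or.inr ⟨δ, hδ, fun T₀ => (h T₀).imp fun T hT => ⟨hT.1, hT.2.le⟩⟩
      · obtain ⟨δ, hδ, h⟩ := exists_gap1 hn ha hell hE
        obtain ⟨T₁, hT₁⟩ := hos δ hδ
        refine Or.inr ⟨δ, hδ, fun T₀ => ⟨max T₀ T₁, le_max_left _ _, ?_⟩⟩
        exact le_trans (mul_le_mul_of_nonneg_right h (by positivity)) (hT₁ _ (le_max_right _ _))
    rcases hgap with h | ⟨δ, hδ, h⟩
    · exact h
    have hA : (0 : ℝ) < n + δ := by positivity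
    have hq : (n : ℝ) / (n + δ) < 1 := by rw [div_lt_one hA]; linarith
    have hq0 : 0 < (n : ℝ) / (n + δ) := by positivity
    refine gen_core hn z hv (b := b) (θ₀ := (1 - n / (n + δ)) / 2) (μ := (n + 1) * m₁)
      (Nat.mul_pos (Nat.succ_pos n) hm₁) ?_ hlow h (by linarith) (by linarith) ?_
      fun x₁ hx0 hx1 => ⟨x₁, hx0, le_rfl, ?_⟩
    · push_cast
      exact mul_le_mul_of_nonneg_right hb1 hm0.le
    · have e : (1 - (1 - n / (n + δ)) / 2) * (n + δ) = n + δ / 2 := by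
        field_simp
        ring
      rw [e]
      linarith
    · have e : (((n + 1) * m₁ : ℕ) : ℝ) / m₁ = n + 1 := by
        push_cast
        field_simp
      rw [e]
      have h1 : 0 < (1 - (n : ℝ) / (n + δ)) / 2 * (gam n x₁ - 1) :=
        mul_pos (by linarith) (sub_pos.2 (one_lt_gam hn hx0 hx1))
      nlinarith
  · obtain ⟨θ₀, t₀, γ, ε, hθ0, hθ1, ht0, htb, hγ, hε, h1, h2⟩ :=
      exists_trade hn ha hb hb1 (hab.resolve_left (not_le.2 hb1))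
    obtain ⟨q, hq⟩ := exists_nat_gt (1 / (b - t₀))
    have hq0 : 0 < q := by
      have : (0 : ℝ) < q := lt_trans (by have := sub_pos.2 htb; positivity) hq
      exact_mod_cast this
    have hv := hver (m₁ * q) (dvd_mul_right _ _) (Nat.mul_pos hm₁ hq0)
    set m1 := m₁ * q with hm1
    have hm0 : (0 : ℝ) < m1 := by exact_mod_cast hv.pos
    have hqm : (q : ℝ) ≤ m1 := by exact_mod_cast Nat.le_mul_of_pos_left q hm₁
    obtain ⟨ell, hell, hTS, hos⟩ := data m1 hv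
    have hμ : t₀ * m1 < (⌊b * m1⌋₊ : ℕ) := by
      have h3 := Nat.lt_floor_add_one (b * m1)
      rw [div_lt_iff₀ (sub_pos.2 htb)] at hq
      have h4 : (q : ℝ) * (b - t₀) ≤ m1 * (b - t₀) :=
        mul_le_mul_of_nonneg_right hqm (sub_pos.2 htb).le
      nlinarith
    have hμ1 : 1 ≤ ⌊b * m1⌋₊ := by
      have : (0 : ℝ) < (⌊b * m1⌋₊ : ℕ) := lt_trans (by positivity) hμ
      exact_mod_cast this
    obtain ⟨T₁, hT₁⟩ := hos ε hε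
    refine gen_core hn z hv (b := b) (θ₀ := θ₀) (A := n / (n + 1) * a - ε) hμ1
      (Nat.floor_le (by positivity)) hlow (fun T₀ => ⟨max T₀ T₁, le_max_left _ _, ?_⟩) hθ0 hθ1 h1
      fun x₁ hx0 hx1 => ?_
    · refine le_trans (mul_le_mul_of_nonneg_right ?_ (by positivity)) (hT₁ _ (le_max_right _ _))
      have h3 := le_root hn (by linarith) hell
      have h4 : (n : ℝ) / (n + 1) * a ≤ n / (n + 1) * (ell : ℝ) ^ ((1 : ℝ) / n) :=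
        mul_le_mul_of_nonneg_left h3 (by positivity)
      linarith
    · obtain ⟨x₀, h3, h4, h5⟩ := exists_gam hγ hx0
      refine ⟨x₀, h3, h4, h2.trans_le ?_⟩
      have h6 : t₀ ≤ (⌊b * m1⌋₊ : ℕ) / (m1 : ℝ) := by
        rw [le_div_iff₀ hm0]
        exact hμ.le
      have h7 : 0 < 1 + θ₀ * (γ - 1) := pos_of_mul_pos_right (lt_trans (by positivity) h2) ht0.le
      have h8 : 1 + θ₀ * (γ - 1) ≤ 1 + θ₀ * (gam n x₀ - 1) := by
        have := mul_le_mul_of_nonneg_left (sub_le_sub_right h5.le 1) hθ0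
        linarith
      exact mul_le_mul h6 h8 h7.le (ht0.le.trans h6)

end Vale.Agent.N271X
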