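import Vale.Agent.P271.Sch.Out
import Vale.Agent.N271X.Hub
import Vale.Agent.N271X.Alg

/-!
# The numerical criterion for divisors
-/

set_option linter.all false

open AlgebraicGeometry Order Polynomial IsLocalRing Filter Topology

namespace Vale.Agent.N271X

open Vale.Agent.P271 Vale.Agent.P271.Sch Vale.Agent.P299 Vale.Agent.P299.Q Vale.Agent.P299.G

/-- The rank of a linear map on a subspace, through independent families. -/
theorem sSup_indep {E F : Type*} [AddCommGroup E] [Module ℂ E] [AddCommGroup F] [Module ℂ F]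
    (A : Submodule ℂ E) [FiniteDimensional ℂ A] (f : E →ₗ[ℂ] F) :
    sSup {r : ℕ | ∃ s : Fin r → E, (∀ i, s i ∈ A) ∧
      ∀ c : Fin r → ℂ, f (∑ i, c i • s i) = 0 → c = 0} = Module.finrank ℂ (A.map f) := by
  refine IsGreatest.csSup_eq ⟨?_, ?_⟩
  · let b := Module.finBasis ℂ (A.map f)
    choose s hs hfs using fun i => (b i).2
    refine ⟨s, hs, fun c hc => ?_⟩
    funext i
    refine Fintype.linearIndependent_iff.1 b.linearIndependent c ?_ i
    apply Subtype.ext
    rw [map_sum] at hc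
    rw [Submodule.coe_sum]
    refine Eq.trans (Finset.sum_congr rfl fun j _ => ?_) hc
    rw [map_smul, hfs j]
    rfl
  · rintro r ⟨s, hs, h⟩
    have h1 : LinearIndependent ℂ fun i => (⟨f (s i), s i, hs i, rfl⟩ : A.map f) := by
      refine Fintype.linearIndependent_iff.2 fun c hc i => congrFun (h c ?_) i
      have h2 := congrArg Subtype.val hc
      rw [Submodule.coe_sum] at h2
      rw [map_sum]
      refine Eq.trans (Finset.sum_congr rfl fun j _ => ?_) h2
      rw [map_smul]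
      rfl
    simpa using h1.fintype_card_le_finrank

variable {V : Q.Var} {L : Q.Div V.X}

/-- The section of `κ + mL`. -/
theorem exists_section_at (hL : IsAmple L) {κ : Q.Div V.X} (hκ : IsCanonicalDivisor κ) (m : ℕ)
    {x₀ : V.X} (hx₀ : IsClosed ({x₀} : Set V.X))
    (hGen : ∀ (g : V.K) (hg : GenAt L g x₀), GCone.Gen (C := cone hL) m (pt hx₀ hg)) :
    ∃ s ∈ H0 (coef (κ + m • L)), GenAt (κ + m • L) s x₀ := by
  obtain ⟨ω, hω0, hω, hdiv⟩ := hκ
  have := ufd V x₀
  obtain ⟨g₀, hg₀⟩ := exists_genAt L x₀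
  obtain ⟨z, d, a, b, i, j, hz, ha, hb, hb0, hdeg, hreg, E, hE, hne, hinv⟩ :=
    GCone.gen_field (C := cone hL) (alpha L) (alpha_injective L) (fun _ => rfl)
      (exists_quotient hL) (hGen g₀ hg₀)
  obtain ⟨t₀, w₀, ht₀, hw₀, h1₀, h2₀⟩ := exists_frame_at V x₀
  set Ω : V.Ten V.dim := (form (a.1.coeff i / b.1.coeff j) d
    (fun k => (z k).1.coeff (d k))).toMultilinearMap with hΩdef
  have hΩ : IsAlt Ω := fun v i j hij hne => AlternatingMap.map_eq_zero_of_eq _ v hij hne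
  have hω₀ : ω w₀ ≠ 0 := value_frame_ne_zero hω0 hω h1₀ h2₀
  -- the order of the section
  have hord : ∀ (x : V.X), IsClosed ({x} : Set V.X) → ∀ (g : V.K), GenAt L g x →
      ∀ (t : Fin V.dim → V.K) (w : Fin V.dim → V.Der), (∀ j, t j ∈ locRing V x) →
      (∀ i, RegDer x (w i)) → (∀ i j, w i (t j) = if i = j then 1 else 0) →
      (∀ v : V.Der, v = ∑ i, v (t i) • w i) → ∀ y : V.X, coheight y = 1 → y ⤳ x → Ω w ≠ 0 →
      Scheme.ord (Ω w₀ / ω w₀) y + coef (κ + m • L) y = Scheme.ord (Ω w / g ^ m) y := by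
    intro x hx g hg t w ht hw h1 h2 y hy hyx hΩw
    have hωx := genAt_of_frame hω0 hω hdiv ht hw h1 h2
    rw [quotient_frame hω hΩ h1 h2 w₀ hω₀, ord_div hΩw hωx.1 y,
      ord_div hΩw (pow_ne_zero _ hg.1) y, ord_pow hg.1, coef_add, coef_nsmul]
    have h3 := hωx.2 y hy hyx
    rw [coef_neg] at h3
    have h4 := hg.2 y hy hyx
    have h5 : (m : ℤ) * (Scheme.ord g y + coef L y) = 0 := by rw [h4, mul_zero]
    linarith
  -- at the point `x₀`
  have hunit : Ω w₀ ≠ 0 ∧ Ω w₀ / g₀ ^ m ∈ locRing V x₀ ∧ (Ω w₀ / g₀ ^ m)⁻¹ ∈ locRing V x₀ := by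
    obtain ⟨W, hW⟩ := exists_ext g₀ w₀
    have e := value_eq (m := m) hW hg₀.1 hz ha hb hb0 hdeg
    have h3 := hreg (pt hx₀ hg₀) (nv_pt hL hx₀ hg₀) W (fun k f hf =>
      hW.regular hL (liesOver_pt hx₀ hg₀) hg₀ hw₀ k hf)
    have h4 : Ω w₀ / g₀ ^ m ∈ locRing V x₀ := by
      refine mem_locRing_of_value (m := m) hL hx₀ hg₀ ?_
      exact (congrArg (fun q => q ∈ locF (alpha L) (alpha_injective L) (ptI hx₀ hg₀)) e).mp h3
    have e2 : alpha L a / alpha L b * (Matrix.of fun i k => E i (alpha L (z k))).det =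
        (Matrix.of fun i l => E i (coords g₀ t₀ l)).det *
          (iT V (C (Ω w₀ / g₀ ^ m)) * tau g₀ ^ m * (tau g₀)⁻¹) := by
      rw [value_expand hW hg₀.1 h1₀ h2₀ E]
      rw [mul_left_comm]
      exact congrArg _ e
    have hP : (Matrix.of fun i l => E i (coords g₀ t₀ l)).det ∈
        locF (alpha L) (alpha_injective L) (ptI hx₀ hg₀) :=
      det_mem_subring _ fun i l => hE i _ (coords_mem hL (liesOver_pt hx₀ hg₀) hg₀ ht₀ l)
    have h5 := inv_mem_locRing_of_value (m := m) hL hx₀ hg₀ hP (by rw [← e2]; exact hne)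
      (by rw [← e2]; exact hinv)
    exact ⟨(div_ne_zero_iff.1 h5.1).1, h4, h5.2⟩
  refine ⟨Ω w₀ / ω w₀, ?_, ?_, ?_⟩
  · rw [mem_H0]
    intro y hy hs0
    obtain ⟨x, hyx, hx⟩ := exists_closed y
    have := ufd V x
    obtain ⟨g, hg⟩ := exists_genAt L x
    obtain ⟨t, w, ht, hw, h1, h2⟩ := exists_frame_at V x
    obtain ⟨W, hW⟩ := exists_ext g w
    have hΩw : Ω w ≠ 0 := by
      intro h0
      apply hs0
      rw [quotient_frame hω hΩ h1 h2 w₀ hω₀, h0, zero_div]
    rw [hord x hx g hg t w ht hw h1 h2 y hy hyx hΩw]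
    have h3 := hreg (pt hx hg) (nv_pt hL hx hg) W (fun k f hf =>
      hW.regular hL (liesOver_pt hx hg) hg hw k hf)
    have h4 : Ω w / g ^ m ∈ locRing V x := by
      refine mem_locRing_of_value (m := m) hL hx hg ?_
      have e := value_eq (m := m) hW hg.1 hz ha hb hb0 hdeg
      exact (congrArg (fun q => q ∈ locF (alpha L) (alpha_injective L) (ptI hx hg)) e).mp h3
    exact ord_nonneg_of_locRing (locRing_le hyx h4)
  · exact div_ne_zero hunit.1 hω₀
  · intro y hy hyx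
    rw [hord x₀ hx₀ g₀ hg₀ t₀ w₀ ht₀ hw₀ h1₀ h2₀ y hy hyx hunit.1]
    have h4 : 0 ≤ Scheme.ord (Ω w₀ / g₀ ^ m) y := ord_nonneg_of_locRing (locRing_le hyx hunit.2.1)
    have h5 : 0 ≤ Scheme.ord (Ω w₀ / g₀ ^ m)⁻¹ y :=
      ord_nonneg_of_locRing (locRing_le hyx hunit.2.2)
    rw [← one_div, ord_div one_ne_zero (div_ne_zero hunit.1 (pow_ne_zero _ hg₀.1)) y, ord_one] at h5
    omega

/-- The prime `P` of the section ring is the ideal of the closure of the point `y`. -/
def IsIdealOf (P : Ideal (secRing L)) (y : V.X) : Prop :=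
  ∀ (m : ℕ) (a : V.K) (ha : a ∈ H0 (coef (m • L))), mono L ha ∈ P ↔ ¬ GenAt (m • L) a y

/-- A prime over `x` is the ideal of a subvariety through `x`. -/
theorem exists_point (hL : IsAmple L) {P : Ideal (secRing L)} [hP : P.IsPrime] {x : V.X}
    (hx : LiesOver P x) : ∃ y : V.X, y ⤳ x ∧ IsIdealOf P y := by
  have := ufd V x
  obtain ⟨g, hg⟩ := exists_genAt L x
  have hj := jLoc_injective (alpha L) (alpha_injective L) P
  choose γ₀ hγ₀ using fun o : V.X.presheaf.stalk x =>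
    C_mem_locF hL hx hg (o := toK x o) ⟨o, rfl⟩
  let γ : V.X.presheaf.stalk x →+* Localization.AtPrime P :=
    { toFun := γ₀
      map_one' := hj (by rw [hγ₀, map_one, map_one, map_one, map_one])
      map_mul' := fun a b => hj (by rw [hγ₀, map_mul, map_mul, map_mul, map_mul, hγ₀, hγ₀])
      map_zero' := hj (by rw [hγ₀, map_zero, map_zero, map_zero, map_zero])
      map_add' := fun a b => hj (by rw [hγ₀, map_add, map_add, map_add, map_add, hγ₀, hγ₀]) }
  have hγ : ∀ o, jLoc (alpha L) (alpha_injective L) P (γ o) = iT V (C (toK x o)) := hγ₀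
  let q : Ideal (V.X.presheaf.stalk x) := (maximalIdeal (Localization.AtPrime P)).comap γ
  have hq : q.IsPrime := Ideal.IsPrime.comap γ
  obtain ⟨y, hyx, hy⟩ := exists_primeAt q
  refine ⟨y, hyx, fun m a ha => ?_⟩
  by_cases ha0 : a = 0
  · subst ha0
    refine ⟨fun _ h => h.1 rfl, fun _ => ?_⟩
    have : mono L ha = 0 := Subtype.ext (monomial_zero_right m)
    rw [this]
    exact P.zero_mem
  obtain ⟨m₀, hm₀⟩ := hL.forall_add (ufd V) 0
  have hex : ∀ m ≥ m₀, ∃ u ∈ H0 (coef (m • L)), GenAt (m • L) u x := by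
    intro m hm
    have := (hm₀ m hm).2
    rw [add_zero] at this
    exact this x
  obtain ⟨u₁, hu₁, hu₁x⟩ := hex m₀ le_rfl
  obtain ⟨u₂, hu₂, hu₂x⟩ := hex (m + m₀) (Nat.le_add_left _ _)
  have hne : a * u₁ / u₂ ≠ 0 := div_ne_zero (mul_ne_zero ha0 hu₁x.1) hu₂x.1
  have e : ∀ z : V.X, coheight z = 1 → z ⤳ x →
      Scheme.ord (a * u₁ / u₂) z = Scheme.ord a z + coef (m • L) z := by
    intro z hz hzx
    rw [ord_div (mul_ne_zero ha0 hu₁x.1) hu₂x.1 z, Scheme.ord_mul ha0 hu₁x.1]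
    have h4 := hu₁x.2 z hz hzx
    have h6 := hu₂x.2 z hz hzx
    rw [add_smul, coef_add] at h6
    linarith
  obtain ⟨o, ho⟩ := exists_of_forall_ord_nonneg V.dvr x (a * u₁ / u₂) fun z hz hzx => by
    rw [e z hz hzx]
    exact (mem_H0.1 ha) z hz ha0
  have h1 : γ o * algebraMap _ _ (mono L hu₂) = algebraMap _ _ (mono L ha * mono L hu₁) := by
    apply hj
    rw [map_mul, hγ, jLoc_algebraMap, jLoc_algebraMap, map_mul, alpha_mono, alpha_mono, alpha_mono,
      ← map_mul, ← map_mul, ho, C_mul_monomial, monomial_mul_monomial,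
      div_mul_cancel₀ _ hu₂x.1]
  have h2 : mono L ha ∈ P ↔ o ∈ q := by
    have h3 : mono L ha ∈ P ↔ mono L ha * mono L hu₁ ∈ P :=
      ⟨fun h => P.mul_mem_right _ h, fun h => (hP.mem_or_mem h).resolve_right (hx _ _ hu₁ hu₁x)⟩
    rw [h3, ← IsLocalization.AtPrime.to_map_mem_maximal_iff (Localization.AtPrime P) P, ← h1]
    exact Ideal.mul_unit_mem_iff_mem _
      (IsLocalization.map_units (M := P.primeCompl) _ ⟨mono L hu₂, hx _ _ hu₂ hu₂x⟩)
  rw [h2, ← hy, mem_primeAt, not_iff_not]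
  have := ufd V y
  constructor
  · intro hu
    refine ⟨ha0, fun z hz hzy => ?_⟩
    rw [← e z hz (hzy.trans hyx), ← ho, ← toK_toStalk hyx, ← toK_toStalk hzy]
    exact ord_toK_of_isUnit (hu.map _)
  · intro hgen
    obtain ⟨b, hb, hbo⟩ := exists_unit_of_forall_ord_eq_zero V.dvr y (a * u₁ / u₂) hne
      fun z hz hzy => (e z hz (hzy.trans hyx)).trans (hgen.2 z hz hzy)
    rw [← ho, ← toK_toStalk hyx] at hbo
    rwa [← toK_injective y hbo]

theorem genAt_generic {D : Q.Div V.X} {a : V.K} : GenAt D a (genericPoint V.X) ↔ a ≠ 0 := by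
  refine ⟨fun h => h.1, fun h => ⟨h, fun z hz hzy => ?_⟩⟩
  exfalso
  have h1 : z = genericPoint V.X :=
    (hzy.antisymm ((genericPoint_spec V.X).specializes trivial)).eq
  have h2 : coheight z = 0 := by
    rw [coheight_eq_zero, h1]
    exact fun w _ => ((genericPoint_spec V.X).specializes trivial : genericPoint V.X ⤳ w)
  rw [h2] at hz
  exact zero_ne_one hz

theorem isIdealOf_bot : IsIdealOf (⊥ : Ideal (secRing L)) (genericPoint V.X) := by
  intro m a ha
  rw [genAt_generic, not_not, Ideal.mem_bot]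
  refine ⟨fun h => ?_, fun h => Subtype.ext ?_⟩
  · exact (monomial_eq_zero_iff _ _).1 (congrArg Subtype.val h)
  · change monomial m a = 0
    rw [h, monomial_zero_right]

theorem le_of_mono {P Q : Ideal (secRing L)} (hP : P.IsHomogeneous (grade L))
    (h : ∀ (m : ℕ) (a : V.K) (ha : a ∈ H0 (coef (m • L))), mono L ha ∈ P → mono L ha ∈ Q) :
    P ≤ Q := by
  classical
  intro f hf
  rw [← DirectSum.sum_support_decompose (grade L) f]
  refine Q.sum_mem fun i _ => ?_
  have h1 := hP i hf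
  have h2 := (DirectSum.decompose (grade L) f i).2
  generalize (DirectSum.decompose (grade L) f i : secRing L) = s at h1 h2
  have h3 : s = mono L (s.2 i) := Subtype.ext (eq_monomial h2)
  rw [h3] at h1 ⊢
  exact h i _ _ h1

theorem le_of_specializes {P Q : Ideal (secRing L)} (hP : P.IsHomogeneous (grade L)) {y w : V.X}
    (h : IsIdealOf P y) (h' : IsIdealOf Q w) (hyw : y ⤳ w) : P ≤ Q :=
  le_of_mono hP fun m a ha h1 =>
    (h' m a ha).2 fun h2 => (h m a ha).1 h1 (genAt_of_specializes hyw h2)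

theorem specializes_of_le (hL : IsAmple L) {P Q : Ideal (secRing L)} {y w : V.X}
    (h : IsIdealOf P y) (h' : IsIdealOf Q w) (hPQ : P ≤ Q) : y ⤳ w := by
  by_contra hc
  obtain ⟨m, -, s, hs, U, -, hwU, hUW, hU⟩ := hL.exists_small (ufd V) w
    ⟨(closure {y})ᶜ, isClosed_closure.isOpen_compl⟩ fun h1 => hc (specializes_iff_mem_closure.2 h1)
  exact (h' m s hs).1 (hPQ ((h m s hs).2 fun h1 => hUW ((hU y).2 h1) (subset_closure rfl)))
    ((hU w).1 hwU)

theorem eq_bot_of_generic {P : Ideal (secRing L)} (hP : P.IsHomogeneous (grade L))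
    (h : IsIdealOf P (genericPoint V.X)) : P = ⊥ :=
  eq_bot_iff.2 (le_of_specializes hP h isIdealOf_bot specializes_rfl)

/-- The ideal of the closure of a point. -/
theorem exists_ideal (L : Q.Div V.X) (y : V.X) :
    ∃ P : Ideal (secRing L), P.IsPrime ∧ P.IsHomogeneous (grade L) ∧ IsIdealOf P y := by
  have := ufd V y
  obtain ⟨g, hg⟩ := exists_genAt L y
  let ψ : secRing L →+* ResidueField (V.X.presheaf.stalk y) :=
    (Polynomial.eval₂RingHom (residue _) 1).comp (del hg)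
  have hp : (RingHom.ker ψ).IsPrime := RingHom.ker_isPrime ψ
  refine ⟨((RingHom.ker ψ).homogeneousCore (grade L)).toIdeal, Ideal.IsPrime.homogeneousCore hp,
    ((RingHom.ker ψ).homogeneousCore (grade L)).isHomogeneous, fun m a ha => ?_⟩
  have h1 : mono L ha ∈ ((RingHom.ker ψ).homogeneousCore (grade L)).toIdeal ↔
      ψ (mono L ha) = 0 :=
    ⟨fun h => Ideal.toIdeal_homogeneousCore_le _ _ h, fun h =>
      Ideal.mem_homogeneousCore_of_homogeneous_of_mem ⟨m, mono_mem ha⟩ h⟩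
  obtain ⟨o, ho⟩ := coeff_div_mem hg ha
  have ho' : toK y o = a / g ^ m := ho
  have h2 : del hg (mono L ha) = monomial m o := by
    apply psi_injective y g hg.1
    rw [psi_del]
    ext k
    rw [coeff_psi]
    change (monomial m a).coeff k = _
    rw [coeff_monomial, coeff_monomial]
    split_ifs with h
    · rw [← h, ho, div_mul_cancel₀ _ (pow_ne_zero _ hg.1)]
    · rw [map_zero, zero_mul]
  have h3 : ψ (mono L ha) = residue _ o := by
    change Polynomial.eval₂ (residue _) 1 (del hg (mono L ha)) = _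
    rw [h2, eval₂_monomial, one_pow, mul_one]
  rw [h1, h3, IsLocalRing.residue_eq_zero_iff, mem_maximalIdeal, mem_nonunits_iff, not_iff_not]
  have e : a ≠ 0 → ∀ z : V.X, coheight z = 1 → z ⤳ y →
      Scheme.ord (a / g ^ m) z = Scheme.ord a z + coef (m • L) z := by
    intro ha0 z hz hzy
    rw [ord_div ha0 (pow_ne_zero _ hg.1) z, ord_pow hg.1, coef_nsmul]
    have h5 := hg.2 z hz hzy
    have h6 : (m : ℤ) * (Scheme.ord g z + coef L z) = 0 := by rw [h5, mul_zero]
    linarith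
  constructor
  · intro hu
    have ha0 : a ≠ 0 := fun h0 => toK_ne_zero hu.ne_zero (by rw [ho', h0, zero_div])
    refine ⟨ha0, fun z hz hzy => ?_⟩
    rw [← e ha0 z hz hzy, ← ho', ← toK_toStalk hzy]
    exact ord_toK_of_isUnit (hu.map _)
  · intro hgen
    obtain ⟨b, hb, hbo⟩ := exists_unit_of_forall_ord_eq_zero V.dvr y (a / g ^ m)
      (div_ne_zero hgen.1 (pow_ne_zero _ hg.1))
      fun z hz hzy => (e hgen.1 z hz hzy).trans (hgen.2 z hz hzy)
    rw [← ho'] at hbo
    rwa [← toK_injective y hbo]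

theorem exists_notMem (hL : IsAmple L) {P : Ideal (secRing L)} {y : V.X} (h : IsIdealOf P y) :
    ∃ j > 0, ∃ s ∈ grade L j, s ∉ P := by
  obtain ⟨k, hk, s, hs, U, -, hyU, hU⟩ := hL y
  exact ⟨k, hk, mono L hs, mono_mem hs, fun h1 => (h k s hs).1 h1 ((hU y).1 hyU)⟩

theorem rel_of (hL : IsAmple L) {m : ℕ} (hv : Ver.VerOK (grade L) m) {P : Ideal (secRing L)}
    (hP : P.IsPrime) {y : V.X} (h : IsIdealOf P y) : ¬ (grade L m : Set (secRing L)) ⊆ P := by
  intro hsub
  obtain ⟨k, hk, s, hs, hsP⟩ := exists_notMem hL h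
  have : NeZero m := ⟨hv.pos.ne'⟩
  exact hsP (Ver.mem_of_part_subset hv.pow hsub hk hs)

theorem height_le (hL : IsAmple L) {m : ℕ} (hv : Ver.VerOK (grade L) m) (d : ℕ) :
    ∀ (y : V.X) (P : Ideal (secRing L)) (D : ℕ), P.IsPrime → P.IsHomogeneous (grade L) →
      IsIdealOf P y → 1 ≤ D → Deg.TwoSided d D (fun t => Drop.hilb (grade L) P (m * t)) →
      height y ≤ d := by
  induction d using Nat.strong_induction_on with
  | _ d ih =>
    intro y P D hP hPh h hD hTS
    rw [height_le_coe_iff]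
    intro w hw
    obtain ⟨Q, hQ, hQh, h'⟩ := exists_ideal L w
    have hrel := rel_of hL hv hQ h'
    obtain ⟨e, -, E, -, -, -, hE, hTS'⟩ := Ver.prime_data hv hQ hQh hrel
    have hPQ : P < Q := lt_of_le_of_ne (le_of_specializes hPh h h' hw.1) fun h1 =>
      hw.2 (specializes_of_le hL h' h h1.ge)
    have he : e < d := Ver.exponent_lt hv hP hPh hQ hQh hPQ hrel hD hE hTS hTS'
    exact (ih e he w Q E hQ hQh h' hE hTS').trans_lt (by exact_mod_cast he)

theorem le_height (hL : IsAmple L) {m : ℕ} (hv : Ver.VerOK (grade L) m) (d : ℕ) :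
    ∀ (y : V.X) (P : Ideal (secRing L)) (e D : ℕ), P.IsPrime → P.IsHomogeneous (grade L) →
      IsIdealOf P y → 1 ≤ D → Deg.TwoSided e D (fun t => Drop.hilb (grade L) P (m * t)) →
      d ≤ e → (d : ℕ∞) ≤ height y := by
  induction d with
  | zero => exact fun _ _ _ _ _ _ _ _ _ _ => zero_le
  | succ d ih =>
    intro y P e D hP hPh h hD hTS hde
    obtain ⟨e, rfl⟩ : ∃ e', e = e' + 1 := ⟨e - 1, by omega⟩
    obtain ⟨Q, hQ, hQh, hPQ, hrel, e', E, hE, hTS', he⟩ :=
      exists_prime_above hv hP hPh (rel_of hL hv hP h) hD hTS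
    obtain ⟨s, hs, hsQ⟩ := Set.not_subset.1 hrel
    obtain ⟨φ, hφQ, hφ⟩ := H58.exists_pt (C := cone hL) hQ hsQ
    have hmax : (RingHom.ker φ).IsMaximal :=
      RingHom.ker_isMaximal_of_surjective _ fun c => ⟨algebraMap ℂ _ c, φ.commutes c⟩
    obtain ⟨x, hx⟩ := exists_center_max hL (RingHom.ker φ) hmax ⟨m, hv.pos, s, hs, hφ⟩
    obtain ⟨w, -, hw⟩ := exists_point hL (P := Q) (hP := hQ) (x := x)
      fun k a ha hgen hmem => hx k a ha hgen (hφQ hmem)
    have hlt : w < y := ⟨specializes_of_le hL h hw hPQ.le, fun h1 =>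
      hPQ.not_ge (le_of_specializes hQh hw h h1)⟩
    have h1 := ih w Q e' E hQ hQh hw hE hTS' (by omega)
    push_cast
    exact (add_le_add_left h1 1).trans (height_add_one_le hlt)

theorem height_eq (hL : IsAmple L) {m : ℕ} (hv : Ver.VerOK (grade L) m) {y : V.X}
    {P : Ideal (secRing L)} {d D : ℕ} (hP : P.IsPrime) (hPh : P.IsHomogeneous (grade L))
    (h : IsIdealOf P y) (hD : 1 ≤ D)
    (hTS : Deg.TwoSided d D (fun t => Drop.hilb (grade L) P (m * t))) : height y = d :=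
  le_antisymm (height_le hL hv d y P D hP hPh h hD hTS)
    (le_height hL hv d y P d D hP hPh h hD hTS le_rfl)

/-- The lengths of the families of sections of `kL` which are independent on the closure of
`y`. -/
def QSet (L : Q.Div V.X) (y : V.X) (k : ℕ) : Set ℕ :=
  {r | ∃ s : Fin r → V.K, (∀ i, s i ∈ H0 (coef (k • L))) ∧ ∀ c : Fin r → ℂ,
    ¬ GenAt (k • L) (∑ i, algebraMap ℂ V.K (c i) * s i) y → c = 0}

theorem sum_mem_H0 {k r : ℕ} {s : Fin r → V.K} (hs : ∀ i, s i ∈ H0 (coef (k • L)))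
    (c : Fin r → ℂ) : ∑ i, algebraMap ℂ V.K (c i) * s i ∈ H0 (coef (k • L)) :=
  Submodule.sum_mem _ fun i _ => by
    rw [← Algebra.smul_def]
    exact Submodule.smul_mem _ _ (hs i)

theorem mono_sum {k r : ℕ} {s : Fin r → V.K} (hs : ∀ i, s i ∈ H0 (coef (k • L)))
    (c : Fin r → ℂ) : mono L (sum_mem_H0 hs c) = ∑ i, c i • mono L (hs i) := by
  apply Subtype.ext
  rw [AddSubmonoidClass.coe_finsetSum]
  change monomial k _ = _
  rw [map_sum]
  refine Finset.sum_congr rfl fun i _ => ?_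
  change _ = c i • monomial k (s i)
  rw [smul_monomial, Algebra.smul_def]

theorem sSup_QSet {P : Ideal (secRing L)} {y : V.X} (h : IsIdealOf P y) (k : ℕ)
    [FiniteDimensional ℂ (grade L k)] : sSup (QSet L y k) = Drop.hilb (grade L) P k := by
  refine Eq.trans (congrArg sSup ?_) (sSup_indep (grade L k) (Ideal.Quotient.mkₐ ℂ P).toLinearMap)
  ext r
  constructor
  · rintro ⟨s, hs, h1⟩
    refine ⟨fun i => mono L (hs i), fun i => mono_mem _, fun c hc => h1 c ?_⟩
    rw [← h k _ (sum_mem_H0 hs c), mono_sum hs]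
    exact Ideal.Quotient.eq_zero_iff_mem.1 hc
  · rintro ⟨s, hs, h1⟩
    refine ⟨fun i => (s i).1.coeff k, fun i => (s i).2 k, fun c hc => h1 c ?_⟩
    rw [← h k _ (sum_mem_H0 (fun i => (s i).2 k) c), mono_sum fun i => (s i).2 k] at hc
    have h2 : ∀ i, mono L ((s i).2 k) = s i := fun i => Subtype.ext (eq_monomial (hs i)).symm
    simp only [h2] at hc
    exact Ideal.Quotient.eq_zero_iff_mem.2 hc

/-- The degree of the closure of `y`. -/
def QDeg (L : Q.Div V.X) (y : V.X) (d : ℕ) (e : ℝ) : Prop :=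
  Tendsto (fun k : ℕ => (d.factorial : ℝ) * (sSup (QSet L y k) : ℕ) / (k : ℝ) ^ d) atTop (𝓝 e)

theorem qDeg_of {P : Ideal (secRing L)} {y : V.X} (h : IsIdealOf P y)
    [∀ k, FiniteDimensional ℂ (grade L k)] {d ℓ : ℕ}
    (hl : Tendsto (fun M : ℕ => (Drop.hilb (grade L) P M : ℝ) / (M : ℝ) ^ d) atTop
      (𝓝 ((ℓ : ℝ) / d.factorial))) : QDeg L y d ℓ := by
  have h1 := hl.const_mul (d.factorial : ℝ)
  rw [mul_div_cancel₀ _ (by positivity)] at h1
  refine h1.congr fun k => ?_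
  rw [sSup_QSet h, mul_div_assoc]

/-- The degree exists. -/
theorem exists_qDeg (hL : IsAmple L) (y : V.X) : ∃ d ℓ : ℕ, height y = d ∧ 0 < ℓ ∧ QDeg L y d ℓ ∧
    (y = genericPoint V.X → d = V.dim) := by
  obtain ⟨x, -, hx⟩ := exists_closed y
  have := ufd V x
  obtain ⟨g, hg⟩ := exists_genAt L x
  obtain ⟨m, hm, hver⟩ := Ver.exists_verOK_cone (cone hL) (nv_pt hL hx hg)
  have hv := hver m dvd_rfl hm
  have hfin : ∀ k, FiniteDimensional ℂ (grade L k) := hv.fin
  obtain ⟨P, hP, hPh, h⟩ := exists_ideal L y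
  obtain ⟨d, -, D, -, -, -, hD, hTS⟩ := Ver.prime_data hv hP hPh (rel_of hL hv hP h)
  have := secRing_finiteType hL
  obtain ⟨ℓ, hℓ, -, hl⟩ := Hilb.veronese_degree (P := P) (grade L) (cone hL).free grade_zero
    (exists_notMem hL h) hm hD hTS
  refine ⟨d, ℓ, height_eq hL hv hP hPh h hD hTS, hℓ, qDeg_of h hl, ?_⟩
  rintro rfl
  obtain rfl := eq_bot_of_generic hPh h
  exact H58.pd_bot (C := cone hL) hv (nv_pt hL hx hg) hD hTS

/-- **The numerical criterion for divisors.** -/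
theorem qNum {κ : Q.Div V.X} (hκ : IsCanonicalDivisor κ) (hL : IsAmple L) {n : ℕ}
    (hdim : V.dim = n) {x : V.X} (hx : IsClosed ({x} : Set V.X)) {a b : ℝ}
    (ha : (n : ℝ) + 1 ≤ a) (hb : 0 < b) (hab : (n : ℝ) + 1 ≤ b ∨ n / b + 1 / a < 1)
    (htop : ∀ e : ℝ, QDeg L (genericPoint V.X) n e → a ^ n ≤ e)
    (hlow : ∀ y : V.X, y ⤳ x → y ≠ genericPoint V.X → ∀ d : ℕ, 1 ≤ d → height y = d →
      ∀ e : ℝ, QDeg L y d e → b ^ d ≤ e) :
    ∃ s ∈ H0 (coef (κ + 1 • L)), GenAt (κ + 1 • L) s x := by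
  subst hdim
  rcases Nat.eq_zero_or_pos V.dim with h0 | hn
  · refine ⟨1, ?_, one_ne_zero, fun y hy => absurd hy (coheight_ne_one_of_dim_eq_zero h0 y)⟩
    rw [Q.mem_H0]
    exact fun y hy => absurd hy (coheight_ne_one_of_dim_eq_zero h0 y)
  refine exists_section_at hL hκ 1 hx fun g hg => ?_
  obtain ⟨m₁, hm₁, hver⟩ := Ver.exists_verOK_cone (cone hL) (nv_pt hL hx hg)
  have hfin : ∀ k, FiniteDimensional ℂ (grade L k) := (hver m₁ dvd_rfl hm₁).fin
  refine hub_num hn (cone hL) _ (nv_pt hL hx hg) ha hb hab (fun ℓ hl => ?_)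
    fun P hP hP0 d ℓ hd ⟨m, D, hv, hD, hTS⟩ hl => ?_
  · exact htop ℓ (qDeg_of isIdealOf_bot hl)
  · obtain ⟨y, hyx, hy⟩ := exists_point hL (P := P) (hP := hP.prime) (x := x)
      fun m s hs hgen hmem =>
      liesOver_pt hx hg m s hs hgen (H58.pz_le (C := cone hL) (hP.le hmem))
    refine hlow y hyx ?_ d hd (height_eq hL hv hP.prime hP.hom hy hD hTS) ℓ (qDeg_of hy hl)
    rintro rfl
    exact hP0 (eq_bot_of_generic hP.hom hy)

end Vale.Agent.N271X
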